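import Vale.Agent.P116.W.Bas

/-! P116 W/Inf: the removable singularity at infinity. -/

open Metric Set Filter Function Topology Complex
open scoped ComplexConjugate Real

noncomputable section

namespace Vale.Agent.P116.W

/-- `u ↦ ψ u⁻¹` is bounded and holomorphic on a punctured disc, so has a holomorphic extension
(`differentiableOn_update_limUnder_of_bddAbove`) with value `β` at `0`; it is not locally constant,
so it maps neighbourhoods of `0` to neighbourhoods of `β`. -/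
theorem at_inf {ψ : ℂ → ℂ} {m : ℝ} (hm : 0 < m) (hd : DifferentiableOn ℂ ψ {z | m < ‖z‖})
    (hb : ∀ z, m < ‖z‖ → ‖ψ z‖ ≤ 1) (hi : InjOn ψ {z | m < ‖z‖}) :
    ∃ β : ℂ, Tendsto ψ (cocompact ℂ) (𝓝 β) ∧ (∀ z, m < ‖z‖ → ψ z ≠ β) ∧
      ∀ R : ℝ, ∀ᶠ y in 𝓝[≠] β, ∃ z, max m R < ‖z‖ ∧ ψ z = y := by
  have h1 : ∀ u ∈ ball (0 : ℂ) m⁻¹ \ {0}, m < ‖u⁻¹‖ := fun u hu => by
    rw [norm_inv]
    exact (lt_inv_comm₀ hm (norm_pos_iff.2 hu.2)).2 (mem_ball_zero_iff.1 hu.1)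
  have h2 : DifferentiableOn ℂ (fun u => ψ u⁻¹) (ball (0 : ℂ) m⁻¹ \ {0}) :=
    hd.comp (differentiableOn_inv.mono fun u hu => hu.2) h1
  have hn : ball (0 : ℂ) m⁻¹ ∈ 𝓝 (0 : ℂ) := ball_mem_nhds _ (inv_pos.2 hm)
  have h3 := differentiableOn_update_limUnder_of_bddAbove hn h2
    ⟨1, by
      rintro _ ⟨u, hu, rfl⟩
      exact hb _ (h1 u hu)⟩
  obtain ⟨β, hβ⟩ : ∃ β, β = limUnder (𝓝[≠] (0 : ℂ)) fun u => ψ u⁻¹ := ⟨_, rfl⟩
  rw [← hβ] at h3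
  obtain ⟨g, hg⟩ : ∃ g, g = update (fun u : ℂ => ψ u⁻¹) 0 β := ⟨_, rfl⟩
  rw [← hg] at h3
  have g0 : g 0 = β := by rw [hg, update_self]
  have g1 : ∀ u, u ≠ 0 → g u = ψ u⁻¹ := fun u hu => by rw [hg, update_of_ne hu]
  have ha : AnalyticAt ℂ g 0 := h3.analyticAt hn
  have t0 : Tendsto (fun z : ℂ => z⁻¹) (cocompact ℂ) (𝓝 0) := by
    rw [← cobounded_eq_cocompact]
    exact tendsto_inv₀_cobounded
  have t1 : ∀ᶠ z : ℂ in cocompact ℂ, m < ‖z‖ :=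
    tendsto_norm_cocompact_atTop.eventually (eventually_gt_atTop m)
  have t2 : ∀ᶠ z : ℂ in cocompact ℂ, g z⁻¹ = ψ z := by
    filter_upwards [t1] with z hz
    rw [g1 _ (inv_ne_zero (norm_pos_iff.1 (hm.trans hz))), inv_inv]
  have h4 : 𝓝 β ≤ map g (𝓝 0) := by
    rw [← g0]
    refine ha.eventually_constant_or_nhds_le_map_nhds.resolve_left fun h => ?_
    have t3 : ∀ᶠ z : ℂ in cocompact ℂ, m < ‖z‖ ∧ ψ z = g 0 := by
      filter_upwards [t1, t2, t0.eventually h] with z k1 k2 k3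
      exact ⟨k1, k2.symm.trans k3⟩
    obtain ⟨z, hz⟩ := t3.exists
    obtain ⟨z', hz', hne⟩ := (t3.and (isCompact_singleton (x := z)).compl_mem_cocompact).exists
    exact hne (hi hz'.1 hz.1 (hz'.2.trans hz.2.symm))
  have h5 : ∀ R : ℝ, ∀ᶠ y in 𝓝[≠] β, ∃ z, max m R < ‖z‖ ∧ ψ z = y := by
    intro R
    have hR : 0 < max m R := lt_max_of_lt_left hm
    filter_upwards [nhdsWithin_le_nhds (h4 (image_mem_map (ball_mem_nhds (0 : ℂ) (inv_pos.2 hR)))),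
      self_mem_nhdsWithin] with y hy hy'
    obtain ⟨u, hu, rfl⟩ := hy
    have hu0 : u ≠ 0 := fun h => hy' (by rw [h, g0]; rfl)
    refine ⟨u⁻¹, ?_, (g1 u hu0).symm⟩
    rw [norm_inv]
    exact (lt_inv_comm₀ hR (norm_pos_iff.2 hu0)).2 (mem_ball_zero_iff.1 hu)
  refine ⟨β, ?_, fun z hz e => ?_, h5⟩
  · rw [← g0]
    exact (ha.continuousAt.tendsto.comp t0).congr' t2
  · have h6 := open_image (isOpen_lt continuous_const continuous_norm) hd hi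
      (isOpen_An m (‖z‖ + 1)) fun u hu => hu.1
    have h7 : ψ '' An m (‖z‖ + 1) ∈ 𝓝[≠] β :=
      nhdsWithin_le_nhds (h6.mem_nhds ⟨z, ⟨hz, lt_add_one _⟩, e⟩)
    obtain ⟨y, ⟨u, hu, k1⟩, v, hv, k2⟩ := ((h5 (‖z‖ + 1)).and h7).exists
    have k3 : u = v := hi ((le_max_left _ _).trans_lt hu) hv.1 (k1.trans k2.symm)
    rw [k3] at hu
    exact lt_asymm hv.2 ((le_max_right _ _).trans_lt hu)

end Vale.Agent.P116.W
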