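import Vale.Agent.P116.W.Lim1
import Vale.Agent.P116.W.Inf

/-! P116 W/Weld: the welding theorem. -/

open Metric Set Filter Function Topology Complex
open scoped ComplexConjugate Real

noncomputable section

namespace Vale.Agent.P116.W

theorem closed_image_weld {ψ : ℂ → ℂ} {C : Set ℂ} (hC : IsClosed C) (hc : ContinuousOn ψ C)
    (ht : Tendsto ψ (cocompact ℂ) (cocompact ℂ)) : IsClosed (ψ '' C) := by
  refine isClosed_of_closure_subset fun y hy => ?_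
  obtain ⟨L, hL, hL2⟩ := mem_cocompact.1 (ht (isCompact_closedBall y 1).compl_mem_cocompact)
  have h1 : IsCompact (ψ '' (L ∩ C)) :=
    (hL.inter_right hC).image_of_continuousOn (hc.mono inter_subset_right)
  have h2 : ball y 1 ∩ ψ '' C ⊆ ψ '' (L ∩ C) := by
    rintro _ ⟨h3, z, hz, rfl⟩
    refine ⟨z, ⟨by_contra fun h4 => ?_, hz⟩, rfl⟩
    exact hL2 h4 (ball_subset_closedBall h3)
  have h3 := closure_mono h2 (isOpen_ball.inter_closure ⟨mem_ball_self one_pos, hy⟩)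
  rw [h1.isClosed.closure_eq] at h3
  exact image_mono inter_subset_right h3

/-- With `q, ψ₀` of `End.lim` and `β` of `at_inf`: `q w ≠ β * (w - p)` on the set (at `p` clear;
otherwise `w ↦ q w / (w - p)` is univalent near `w`, so open, and takes a value `ψ₀ z` with
`b < ‖z‖`). Put `φ w = (w - p) / (q w - β * (w - p))`, `ψ z = φ (e z)` for `‖z‖ < b` and
`(ψ₀ z - β)⁻¹` otherwise (the formulas agree on `An m b`). -/
theorem End.weld0 {K : Set ℂ} {e : ℂ → ℂ} {a b : ℝ} (h : End K e a b)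
    (hb : Bornology.IsBounded (K ∪ e '' An a b)) :
    ∃ φ ψ : ℂ → ℂ, DifferentiableOn ℂ φ (K ∪ e '' An a b) ∧ InjOn φ (K ∪ e '' An a b) ∧
      DifferentiableOn ℂ ψ {z | a < ‖z‖} ∧ InjOn ψ {z | a < ‖z‖} ∧ EqOn ψ (φ ∘ e) (An a b) ∧
      Disjoint (φ '' K) (ψ '' {z | a < ‖z‖}) ∧ Tendsto ψ (cocompact ℂ) (cocompact ℂ) := by
  obtain ⟨p, hp⟩ := h.ne
  obtain ⟨m, h1, h2⟩ := exists_between h.lt
  obtain ⟨q, ψ₀, hq, hqp, hψ, hψb, hqe, hψi, hqi, hsep⟩ := h.lim hb h1 h2 hp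
  obtain ⟨β, hβ1, hβ2, hβ3⟩ := at_inf (h.pos.trans h1) hψ hψb hψi
  have hU : IsOpen (K ∪ e '' An a b) := h.op b h.lt le_rfl
  have hne : ∀ w ∈ K ∪ e '' An a b, q w - β * (w - p) ≠ 0 := by
    intro w hw h0
    have hwp : w ≠ p := by
      rintro rfl
      exact hqp (by simpa using h0)
    have hV : IsOpen ((K ∪ e '' An a b) \ {p}) := hU.sdiff isClosed_singleton
    have hg : IsOpen ((fun w => q w / (w - p)) '' ((K ∪ e '' An a b) \ {p})) := by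
      refine open_image hV ((hq.mono sdiff_subset).div (by fun_prop)
        fun x hx => sub_ne_zero.2 hx.2) (fun x hx y hy hxy => hqi x hx.1 y hy.1 ?_) hV subset_rfl
      exact (div_eq_div_iff (sub_ne_zero.2 hx.2) (sub_ne_zero.2 hy.2)).1 hxy
    have hm : β ∈ (fun w => q w / (w - p)) '' ((K ∪ e '' An a b) \ {p}) :=
      ⟨w, ⟨hw, hwp⟩, by
        rw [div_eq_iff (sub_ne_zero.2 hwp)]
        exact sub_eq_zero.1 h0⟩
    obtain ⟨y, ⟨z, hz, hzy⟩, w', hw', hy⟩ :=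
      ((hβ3 b).and (mem_nhdsWithin_of_mem_nhds (hg.mem_nhds hm))).exists
    have a1 : q w' = ψ₀ z * (w' - p) := by
      rw [hzy, ← hy, div_mul_cancel₀ _ (sub_ne_zero.2 hw'.2)]
    exact absurd (hsep w' hw'.1 z ((le_max_left _ _).trans_lt hz) a1).1
      (not_lt.2 ((le_max_right _ _).trans hz.le))
  obtain ⟨φ, hφ⟩ : ∃ φ : ℂ → ℂ, φ = fun w => (w - p) / (q w - β * (w - p)) := ⟨_, rfl⟩
  have hφd : DifferentiableOn ℂ φ (K ∪ e '' An a b) := by
    rw [hφ]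
    exact DifferentiableOn.div (by fun_prop) (hq.sub (by fun_prop)) hne
  have hφi : InjOn φ (K ∪ e '' An a b) := by
    intro x hx y hy hxy
    simp only [hφ] at hxy
    rw [div_eq_div_iff (hne x hx) (hne y hy)] at hxy
    exact hqi x hx y hy (by linear_combination -hxy)
  have hkey : ∀ w ∈ K ∪ e '' An a b, ∀ z, m < ‖z‖ → φ w = (ψ₀ z - β)⁻¹ → ‖z‖ < b := by
    intro w hw z hz he
    simp only [hφ] at he
    rw [inv_eq_one_div, div_eq_div_iff (hne w hw) (sub_ne_zero.2 (hβ2 z hz))] at he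
    exact (hsep w hw z hz (by linear_combination -he)).1
  obtain ⟨ψ, hψ'⟩ : ∃ ψ : ℂ → ℂ, ψ = fun z => if ‖z‖ < b then φ (e z) else (ψ₀ z - β)⁻¹ :=
    ⟨_, rfl⟩
  have e1 : ∀ z, ‖z‖ < b → ψ z = φ (e z) := fun z hz => by simp only [hψ', if_pos hz]
  have e2 : ∀ z, m < ‖z‖ → ψ z = (ψ₀ z - β)⁻¹ := by
    intro z hz
    by_cases hzb : ‖z‖ < b
    · have a1 : e z - p ≠ 0 := sub_ne_zero.2 fun a2 =>
        disjoint_left.1 h.dis hp ⟨z, ⟨h1.trans hz, hzb⟩, a2⟩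
      rw [e1 z hzb, hφ]
      simp only [hqe z ⟨hz, hzb⟩]
      rw [← sub_mul, div_mul_cancel_right₀ a1]
    · simp only [hψ', if_neg hzb]
  have hmem : ∀ z, a < ‖z‖ → ‖z‖ < b → e z ∈ K ∪ e '' An a b := fun z a1 a2 =>
    Or.inr ⟨z, ⟨a1, a2⟩, rfl⟩
  have hbm : ∀ z : ℂ, ¬ ‖z‖ < b → m < ‖z‖ := fun z hz => h2.trans_le (not_lt.1 hz)
  refine ⟨φ, ψ, hφd, hφi, fun z hz => ?_, fun z hz z' hz' he => ?_, fun z hz => e1 z hz.2,
    disjoint_left.2 ?_, ?_⟩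
  · refine DifferentiableAt.differentiableWithinAt ?_
    by_cases hzb : ‖z‖ < b
    · have a1 : DifferentiableOn ℂ ψ (An a b) :=
        (hφd.comp h.hol fun x hx => hmem x hx.1 hx.2).congr fun x hx => e1 x hx.2
      exact a1.differentiableAt ((isOpen_An a b).mem_nhds ⟨hz, hzb⟩)
    · have a1 : DifferentiableOn ℂ ψ {z | m < ‖z‖} :=
        ((hψ.sub_const β).inv fun x hx => sub_ne_zero.2 (hβ2 x hx)).congr fun x hx => e2 x hx
      exact a1.differentiableAt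
        ((isOpen_lt continuous_const continuous_norm).mem_nhds (hbm z hzb))
  · by_cases a1 : ‖z‖ < b <;> by_cases a2 : ‖z'‖ < b
    · rw [e1 z a1, e1 z' a2] at he
      exact h.inj ⟨hz, a1⟩ ⟨hz', a2⟩ (hφi (hmem z hz a1) (hmem z' hz' a2) he)
    · rw [e1 z a1, e2 z' (hbm z' a2)] at he
      exact absurd (hkey _ (hmem z hz a1) z' (hbm z' a2) he) a2
    · rw [e1 z' a2, e2 z (hbm z a1)] at he
      exact absurd (hkey _ (hmem z' hz' a2) z (hbm z a1) he.symm) a1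
    · rw [e2 z (hbm z a1), e2 z' (hbm z' a2), inv_inj, sub_left_inj] at he
      exact hψi (hbm z a1) (hbm z' a2) he
  · rintro _ ⟨w, hw, rfl⟩ ⟨z, hz, he⟩
    by_cases a1 : ‖z‖ < b
    · rw [e1 z a1] at he
      exact disjoint_left.1 h.dis hw ⟨z, ⟨hz, a1⟩, hφi (hmem z hz a1) (Or.inl hw) he⟩
    · rw [e2 z (hbm z a1)] at he
      exact a1 (hkey w (Or.inl hw) z (hbm z a1) he.symm)
  · have a1 : ∀ᶠ z in cocompact ℂ, m < ‖z‖ :=
      (tendsto_norm_cocompact_atTop (E := ℂ)).eventually_gt_atTop m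
    have a2 : Tendsto (fun z => ψ₀ z - β) (cocompact ℂ) (𝓝[≠] 0) := by
      refine tendsto_nhdsWithin_iff.2 ⟨?_, a1.mono fun z hz => sub_ne_zero.2 (hβ2 z hz)⟩
      simpa using hβ1.sub_const β
    have a3 := tendsto_inv₀_nhdsNE_zero.comp a2
    rw [Metric.cobounded_eq_cocompact] at a3
    exact a3.congr' (a1.mono fun z hz => (e2 z hz).symm)

/-- The union `φ '' (K ∪ e '' An a b) ∪ ψ '' {a < ‖z‖}` is open, and closed: it is the union of the
compact set `φ '' (K ∪ e '' Ac a t)` and of `ψ '' {t ≤ ‖z‖}`, closed as `ψ → ∞`. -/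
theorem End.weld {K : Set ℂ} {e : ℂ → ℂ} {a b : ℝ} (h : End K e a b)
    (hb : Bornology.IsBounded (K ∪ e '' An a b)) :
    ∃ φ ψ : ℂ → ℂ, DifferentiableOn ℂ φ (K ∪ e '' An a b) ∧ InjOn φ (K ∪ e '' An a b) ∧
      DifferentiableOn ℂ ψ {z | a < ‖z‖} ∧ InjOn ψ {z | a < ‖z‖} ∧ EqOn ψ (φ ∘ e) (An a b) ∧
      Disjoint (φ '' K) (ψ '' {z | a < ‖z‖}) ∧ Tendsto ψ (cocompact ℂ) (cocompact ℂ) ∧
      φ '' K ∪ ψ '' {z | a < ‖z‖} = univ := by
  obtain ⟨φ, ψ, h1, h2, h3, h4, h5, h6, h7⟩ := h.weld0 hb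
  refine ⟨φ, ψ, h1, h2, h3, h4, h5, h6, h7, ?_⟩
  obtain ⟨t, ht1, ht2⟩ := exists_between h.lt
  have hU : IsOpen (K ∪ e '' An a b) := h.op b h.lt le_rfl
  have hO : IsOpen {z : ℂ | a < ‖z‖} := isOpen_lt continuous_const continuous_norm
  have e1 : φ '' K ∪ ψ '' {z | a < ‖z‖} = φ '' (K ∪ e '' An a b) ∪ ψ '' {z | a < ‖z‖} := by
    refine Subset.antisymm (union_subset_union_left _ (image_mono subset_union_left)) ?_
    rintro _ (⟨w, hw | ⟨z, hz, rfl⟩, rfl⟩ | hw)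
    · exact Or.inl ⟨w, hw, rfl⟩
    · exact Or.inr ⟨z, hz.1, h5 hz⟩
    · exact Or.inr hw
  have e2 : φ '' K ∪ ψ '' {z | a < ‖z‖} = φ '' (K ∪ e '' Ac a t) ∪ ψ '' {z | t ≤ ‖z‖} := by
    apply Subset.antisymm
    · rintro _ (⟨w, hw, rfl⟩ | ⟨z, hz, rfl⟩)
      · exact Or.inl ⟨w, Or.inl hw, rfl⟩
      · rcases le_total ‖z‖ t with a1 | a1
        · exact Or.inl ⟨e z, Or.inr ⟨z, ⟨hz, a1⟩, rfl⟩, (h5 ⟨hz, a1.trans_lt ht2⟩).symm⟩
        · exact Or.inr ⟨z, a1, rfl⟩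
    · rintro _ (⟨w, hw | ⟨z, hz, rfl⟩, rfl⟩ | ⟨z, hz, rfl⟩)
      · exact Or.inl ⟨w, hw, rfl⟩
      · exact Or.inr ⟨z, hz.1, h5 ⟨hz.1, hz.2.trans_lt ht2⟩⟩
      · exact Or.inr ⟨z, ht1.trans_le hz, rfl⟩
  refine IsClopen.eq_univ ⟨?_, ?_⟩ ((h.ne.image φ).mono subset_union_left)
  · rw [e2]
    refine ((h.cpt t ht1 ht2).image_of_continuousOn (h1.continuousOn.mono ?_)).isClosed.union
      (closed_image_weld (isClosed_le continuous_const continuous_norm)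
        (h3.continuousOn.mono fun z hz => ht1.trans_le hz) h7)
    exact union_subset_union_right _ (image_mono fun z hz => ⟨hz.1, hz.2.trans_lt ht2⟩)
  · rw [e1]
    exact (open_image hU h1 h2 hU subset_rfl).union (open_image hO h3 h4 hO subset_rfl)

end Vale.Agent.P116.W
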