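import Vale.Agent.P116.W.Defs

/-! P116 W/Bas: elementary facts. `Vale.Agent.P142.deriv_ne` gives `deriv f z ≠ 0` for univalent `f`. -/

open Metric Set Filter Function Topology Complex
open scoped ComplexConjugate Real

noncomputable section

namespace Vale.Agent.P116.W

theorem pol_bas {J : Set ℝ} (hJ : IsPreconnected J) (h0 : ∀ r ∈ J, 0 ≤ r) :
    IsPreconnected {z : ℂ | ‖z‖ ∈ J} := by
  have e : {z : ℂ | ‖z‖ ∈ J} =
      (fun p : ℝ × ℝ => (p.1 : ℂ) * Complex.exp (p.2 * I)) '' (J ×ˢ univ) := by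
    ext z
    refine ⟨fun hz => ⟨(‖z‖, arg z), ⟨hz, trivial⟩, norm_mul_exp_arg_mul_I z⟩, ?_⟩
    rintro ⟨p, hp, rfl⟩
    rw [mem_ofPred_eq, norm_mul, norm_exp_ofReal_mul_I, mul_one, norm_real,
      Real.norm_of_nonneg (h0 _ hp.1)]
    exact hp.1
  rw [e]
  exact (hJ.prod isPreconnected_univ).image _ (by fun_prop)

theorem An_mono_bas {a b t : ℝ} (h : t ≤ b) : An a t ⊆ An a b :=
  fun _ hz => ⟨hz.1, hz.2.trans_le h⟩

theorem Ac_sub_bas {a b t : ℝ} (h : t < b) : Ac a t ⊆ An a b :=
  fun _ hz => ⟨hz.1, hz.2.trans_lt h⟩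

/-- Univalent maps are open (`deriv_ne`, `HasStrictDerivAt.map_nhds_eq`). -/
theorem open_image {f : ℂ → ℂ} {U V : Set ℂ} (hU : IsOpen U) (hd : DifferentiableOn ℂ f U)
    (hi : InjOn f U) (hV : IsOpen V) (hVU : V ⊆ U) : IsOpen (f '' V) := by
  refine isOpen_iff_mem_nhds.2 ?_
  rintro _ ⟨z, hz, rfl⟩
  rw [← (hd.analyticOnNhd hU z (hVU hz)).hasStrictDerivAt.map_nhds_eq
    (Vale.Agent.P142.deriv_ne hU hd hi (hVU hz))]
  exact image_mem_map (hV.mem_nhds hz)

/-- The inverse of a univalent map is holomorphic (see the end of `P071/RMT.lean`). -/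
theorem inv_hol {f : ℂ → ℂ} {U : Set ℂ} (hU : IsOpen U) (hd : DifferentiableOn ℂ f U)
    (hi : InjOn f U) : DifferentiableOn ℂ (invFunOn f U) (f '' U) := by
  rintro _ ⟨z, hz, rfl⟩
  have h1 := ((hd.analyticOnNhd hU z hz).hasStrictDerivAt.to_local_left_inverse
    (Vale.Agent.P142.deriv_ne hU hd hi hz) (g := invFunOn f U) (by
      filter_upwards [hU.mem_nhds hz] with y hy using hi.leftInvOn_invFunOn hy))
  exact h1.hasDerivAt.differentiableAt.differentiableWithinAt

/-- Image of `Ioo a b ×ˢ univ` under polar coordinates. -/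
theorem An_con {a b : ℝ} (ha : 0 ≤ a) : IsPreconnected (An a b) := by
  exact pol_bas (J := Ioo a b) isPreconnected_Ioo fun r hr => ha.trans hr.1.le

theorem Ac_con {a b : ℝ} (ha : 0 ≤ a) : IsPreconnected (Ac a b) := by
  exact pol_bas (J := Ioc a b) isPreconnected_Ioc fun r hr => ha.trans hr.1.le

theorem out_con {a : ℝ} (ha : 0 ≤ a) : IsPreconnected {z : ℂ | a < ‖z‖} := by
  exact pol_bas (J := Ioi a) isPreconnected_Ioi fun r hr => ha.trans (le_of_lt hr)

/-- Conformal invariance of `End`. -/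
theorem End.map {K : Set ℂ} {e G : ℂ → ℂ} {a b : ℝ} (h : End K e a b)
    (hd : DifferentiableOn ℂ G (K ∪ e '' An a b)) (hi : InjOn G (K ∪ e '' An a b)) :
    End (G '' K) (G ∘ e) a b := by
  have hm : MapsTo e (An a b) (K ∪ e '' An a b) := fun z hz => Or.inr ⟨z, hz, rfl⟩
  refine ⟨h.pos, h.lt, h.ne.image _, hd.comp h.hol hm, hi.comp h.inj hm, ?_, fun t h1 h2 => ?_,
    fun t h1 h2 => ?_, ?_⟩
  · rw [image_comp]
    exact (disjoint_image_image fun x hx y hy e => Set.disjoint_left.1 h.dis hx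
      (hi (Or.inl hx) (Or.inr hy) e ▸ hy))
  · rw [image_comp, ← image_union]
    exact open_image (h.op b h.lt le_rfl) hd hi (h.op t h1 h2)
      (union_subset_union_right _ (image_mono (An_mono_bas h2)))
  · rw [image_comp, ← image_union]
    exact (h.cpt t h1 h2).image_of_continuousOn
      (hd.continuousOn.mono (union_subset_union_right _ (image_mono (Ac_sub_bas h2))))
  · rw [image_comp, ← image_union]
    exact h.con.image _ hd.continuousOn

/-- Shrinking the outer radius. Connectedness: if `K ∪ e '' An a t` were split by open sets `u, v`,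
the connected set `e '' An a t` lies in one of them, say `u`; then `u ∪ e '' An a b` and the open
set `v ∩ (K ∪ e '' An a t) ⊆ K` split `K ∪ e '' An a b`. -/
theorem End.mono {K : Set ℂ} {e : ℂ → ℂ} {a b t : ℝ} (h : End K e a b) (h1 : a < t) (h2 : t ≤ b) :
    End K e a t := by
  have hs := An_mono_bas (a := a) h2
  refine ⟨h.pos, h1, h.ne, h.hol.mono hs, h.inj.mono hs, h.dis.mono_right (image_mono hs),
    fun s s1 s2 => h.op s s1 (s2.trans h2), fun s s1 s2 => h.cpt s s1 (s2.trans_le h2), ?_⟩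
  have key : ∀ u v : Set ℂ, IsOpen u → IsOpen v → K ∪ e '' An a t ⊆ u ∪ v →
      (K ∪ e '' An a t) ∩ (u ∩ v) = ∅ → e '' An a t ⊆ u →
      K ∪ e '' An a t ⊆ u ∨ K ∪ e '' An a t ⊆ v := by
    intro u v hu hv h3 h4 h5
    have h6 : ∀ z ∈ K ∪ e '' An a t, z ∈ u ∪ e '' An a b → z ∈ u := by
      rintro z (hz | hz) (k | k)
      · exact k
      · exact absurd k (Set.disjoint_left.1 h.dis hz)
      · exact k
      · exact h5 hz
    refine (isPreconnected_iff_subset_of_disjoint.1 h.con (u ∪ e '' An a b)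
      (v ∩ (K ∪ e '' An a t)) (hu.union (open_image (isOpen_An a b) h.hol h.inj (isOpen_An a b)
        subset_rfl)) (hv.inter (h.op t h1 h2)) ?_ ?_).imp ?_ ?_
    · rintro z (hz | hz)
      · exact (h3 (Or.inl hz)).imp Or.inl fun k => ⟨k, Or.inl hz⟩
      · exact Or.inl (Or.inr hz)
    · refine eq_empty_of_forall_notMem fun z hz => ?_
      exact (eq_empty_iff_forall_notMem.1 h4) z ⟨hz.2.2.2, h6 z hz.2.2.2 hz.2.1, hz.2.2.1⟩
    · exact fun k z hz => h6 z hz (k (union_subset_union_right _ (image_mono hs) hz))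
    · exact fun k z hz => (k (union_subset_union_right _ (image_mono hs) hz)).1
  refine isPreconnected_iff_subset_of_disjoint.2 fun u v hu hv h3 h4 => ?_
  have h5 : IsPreconnected (e '' An a t) :=
    (An_con h.pos.le).image _ (h.hol.mono hs).continuousOn
  rcases isPreconnected_iff_subset_of_disjoint.1 h5 u v hu hv (subset_union_right.trans h3)
    (eq_empty_of_subset_empty ((inter_subset_inter_left _ subset_union_right).trans h4.le))
    with k | k
  · exact key u v hu hv h3 h4 k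
  · exact (key v u hv hu (union_comm u v ▸ h3) (inter_comm u v ▸ h4) k).symm

end Vale.Agent.P116.W
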