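import Vale.Agent.P116.W.Bas

/-! P116 W/Conn: the complement of the compact part is connected; logarithms on it. -/

open Metric Set Filter Function Topology Complex
open scoped ComplexConjugate Real

noncomputable section

namespace Vale.Agent.P116.W

/-- Let `U` be the complement (open) and `C` the component of `U` that contains the connected set
`e '' An t b`. Another component `C'` is open; a frontier point `p` of `C'` is not in `U` and not in
the open set `K ∪ e '' An a t`, so `p = e ζ` with `‖ζ‖ = t`; the open set `e '' An a b` meets `C'`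
at a point `e z` with `t < ‖z‖`, which is in `C`. So `C'` has empty frontier, `C' = univ`. -/
theorem End.compl_con {K : Set ℂ} {e : ℂ → ℂ} {a b t : ℝ} (h : End K e a b) (h1 : a < t)
    (h2 : t < b) : IsPreconnected (K ∪ e '' Ac a t)ᶜ := by
  have hU : IsOpen (K ∪ e '' Ac a t)ᶜ := (h.cpt t h1 h2).isClosed.isOpen_compl
  have hsub : An t b ⊆ An a b := fun z hz => ⟨h1.trans hz.1, hz.2⟩
  have hsub' : Ac a t ⊆ An a b := fun z hz => ⟨hz.1, hz.2.trans_lt h2⟩
  have hB : IsPreconnected (e '' An t b) :=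
    (An_con (h.pos.trans h1).le).image e (h.hol.continuousOn.mono hsub)
  have hBU : e '' An t b ⊆ (K ∪ e '' Ac a t)ᶜ := by
    rintro _ ⟨z, hz, rfl⟩ (hK | ⟨z', hz', he⟩)
    · exact Set.disjoint_left.1 h.dis hK ⟨z, hsub hz, rfl⟩
    · have := h.inj (hsub' hz') (hsub hz) he
      subst this
      exact absurd hz.1 (not_lt.2 hz'.2)
  have key : ∀ u v : Set ℂ, IsOpen u → IsOpen v → (K ∪ e '' Ac a t)ᶜ ⊆ u ∪ v →
      (∀ q ∈ (K ∪ e '' Ac a t)ᶜ, q ∈ u → q ∉ v) → e '' An t b ⊆ u →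
      ¬ ((K ∪ e '' Ac a t)ᶜ ∩ v).Nonempty := by
    intro u v hu hv huv hd hBu hne
    have hcl : IsClosed ((K ∪ e '' Ac a t)ᶜ ∩ v) := by
      refine closure_subset_iff_isClosed.1 fun p hp => ?_
      by_cases hpU : p ∈ (K ∪ e '' Ac a t)ᶜ
      · rcases huv hpU with hpu | hpv
        · obtain ⟨q, hqu, hqU, hqv⟩ := _root_.mem_closure_iff.1 hp u hu hpu
          exact absurd hqv (hd q hqU hqu)
        · exact ⟨hpU, hpv⟩
      · have hp' : p ∈ K ∪ e '' An a b :=
          union_subset_union_right K (image_mono hsub') (not_not.1 hpU)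
        obtain ⟨q, hq, hqU, hqv⟩ := _root_.mem_closure_iff.1 hp _ (h.op b h.lt le_rfl) hp'
        rcases hq with hq | ⟨z, hz, rfl⟩
        · exact absurd (Or.inl hq) hqU
        · have hz' : t < ‖z‖ := not_le.1 fun hle => hqU (Or.inr ⟨z, ⟨hz.1, hle⟩, rfl⟩)
          exact absurd hqv (hd _ hqU (hBu ⟨z, ⟨hz', hz.2⟩, rfl⟩))
    have huniv := (isClopen_iff.1 ⟨hcl, hU.inter hv⟩).resolve_left hne.ne_empty
    obtain ⟨k, hk⟩ := h.ne
    have hk' : k ∈ (K ∪ e '' Ac a t)ᶜ ∩ v := huniv ▸ mem_univ k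
    exact hk'.1 (Or.inl hk)
  intro u v hu hv huv hnu hnv
  by_contra hne
  have hd : ∀ q ∈ (K ∪ e '' Ac a t)ᶜ, q ∈ u → q ∉ v := fun q hq hqu hqv => hne ⟨q, hq, hqu, hqv⟩
  rcases isPreconnected_iff_subset_of_disjoint.1 hB u v hu hv (hBU.trans huv)
    (eq_empty_of_forall_notMem fun q hq => hd q (hBU hq.1) hq.2.1 hq.2.2) with h3 | h3
  · exact key u v hu hv huv hd h3 hnv
  · exact key v u hv hu (by rwa [union_comm v u]) (fun q hq hqv hqu => hd q hq hqu hqv) h3 hnu

theorem log_step_Conn {X : Set ℂ} {y y' : ℂ} (hy : ∀ w ∈ X, ‖y - y'‖ < ‖w - y‖)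
    (h : ∃ L : ℂ → ℂ, ContinuousOn L X ∧ ∀ w ∈ X, exp (L w) = w - y) :
    ∃ L : ℂ → ℂ, ContinuousOn L X ∧ ∀ w ∈ X, exp (L w) = w - y' := by
  obtain ⟨L, hL, he⟩ := h
  have h0 : ∀ w ∈ X, w - y ≠ 0 := fun w hw =>
    norm_pos_iff.1 ((norm_nonneg _).trans_lt (hy w hw))
  have hs : ∀ w ∈ X, 1 + (y - y') / (w - y) ∈ slitPlane := fun w hw =>
    mem_slitPlane_of_norm_lt_one (by
      rw [norm_div, div_lt_one (norm_pos_iff.2 (h0 w hw))]
      exact hy w hw)
  refine ⟨fun w => L w + log (1 + (y - y') / (w - y)), hL.add ?_, fun w hw => ?_⟩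
  · exact (continuousOn_const.add (continuousOn_const.div
      (continuousOn_id.sub continuousOn_const) h0)).clog hs
  · rw [exp_add, he w hw, exp_log (slitPlane_ne_zero (hs w hw))]
    have := h0 w hw
    field_simp
    ring

/-- The set of `y ∉ X` with a logarithm is open and closed in `Xᶜ`
(`(w - y') / (w - y) = 1 + (y - y') / (w - y)` is in the slit plane if `‖y - y'‖ < infDist y X`),
and contains the real `y = -R` for large `R`. -/
theorem log_of_con {X : Set ℂ} (hX : IsCompact X) (hc : IsPreconnected Xᶜ) {y : ℂ} (hy : y ∉ X) :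
    ∃ L : ℂ → ℂ, ContinuousOn L X ∧ ∀ w ∈ X, exp (L w) = w - y := by
  obtain ⟨R, hR0, hR⟩ := hX.isBounded.subset_ball_lt 0 0
  have hy0 : (-(R : ℂ)) ∈ Xᶜ := fun hm => by
    have := mem_ball_zero_iff.1 (hR hm)
    rw [norm_neg, Complex.norm_real, Real.norm_of_nonneg hR0.le] at this
    exact lt_irrefl _ this
  have hs : ∀ w ∈ X, w - -(R : ℂ) ∈ slitPlane := fun w hw => by
    refine Or.inl ?_
    have h1 := mem_ball_zero_iff.1 (hR hw)
    have h2 := (abs_le.1 (abs_re_le_norm w)).1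
    simp only [sub_neg_eq_add, add_re, ofReal_re]
    linarith
  have base : ∃ L : ℂ → ℂ, ContinuousOn L X ∧ ∀ w ∈ X, exp (L w) = w - -(R : ℂ) :=
    ⟨fun w => log (w - -(R : ℂ)), (continuousOn_id.sub continuousOn_const).clog hs,
      fun w hw => exp_log (slitPlane_ne_zero (hs w hw))⟩
  have main := hc.induction₂' (fun x x' =>
    (∃ L : ℂ → ℂ, ContinuousOn L X ∧ ∀ w ∈ X, exp (L w) = w - x) →
      ∃ L : ℂ → ℂ, ContinuousOn L X ∧ ∀ w ∈ X, exp (L w) = w - x') (fun x hx => ?_)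
      (fun _ _ _ _ _ _ h1 h2 h3 => h2 (h1 h3)) hy0 hy
  · exact main base
  obtain ⟨r, hr, hb⟩ := Metric.isOpen_iff.1 hX.isClosed.isOpen_compl x hx
  have hw : ∀ w ∈ X, r ≤ ‖w - x‖ := fun w hw =>
    not_lt.1 fun hlt => hb (mem_ball_iff_norm.2 hlt) hw
  refine mem_nhdsWithin_of_mem_nhds (mem_of_superset (ball_mem_nhds x (half_pos hr)) ?_)
  intro x' hx'
  have h1 : ‖x' - x‖ < r / 2 := mem_ball_iff_norm.1 hx'
  refine ⟨log_step_Conn fun w hw' => ?_, log_step_Conn fun w hw' => ?_⟩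
  · rw [norm_sub_rev x x']
    linarith [hw w hw']
  · have h2 := norm_sub_le_norm_sub_add_norm_sub w x' x
    linarith [hw w hw']

end Vale.Agent.P116.W
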