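import Vale.Agent.P071.RMT
import Vale.Agent.P142.Pole

/-! P116 W/Defs (owner helper74, no task): a plane set `K` with an annular collar `e`. -/

open Metric Set Filter Function Topology Complex
open scoped ComplexConjugate Real

noncomputable section

namespace Vale.Agent.P116.W

/-- The open annulus. -/
def An (a b : ℝ) : Set ℂ := {z | a < ‖z‖ ∧ ‖z‖ < b}

/-- The annulus with its outer circle. -/
def Ac (a b : ℝ) : Set ℂ := {z | a < ‖z‖ ∧ ‖z‖ ≤ b}

/-- The core `K` with the collar `e` on the annulus `a < |z| < b`. -/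
structure End (K : Set ℂ) (e : ℂ → ℂ) (a b : ℝ) : Prop where
  pos : 0 < a
  lt : a < b
  ne : K.Nonempty
  hol : DifferentiableOn ℂ e (An a b)
  inj : InjOn e (An a b)
  dis : Disjoint K (e '' An a b)
  op : ∀ t, a < t → t ≤ b → IsOpen (K ∪ e '' An a t)
  cpt : ∀ t, a < t → t < b → IsCompact (K ∪ e '' Ac a t)
  con : IsPreconnected (K ∪ e '' An a b)

/-- Univalent functions without zeros have continuous square roots. -/
def HasSqrt (U : Set ℂ) : Prop := ∀ h : ℂ → ℂ, DifferentiableOn ℂ h U → InjOn h U →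
  0 ∉ h '' U → ∃ s : ℂ → ℂ, ContinuousOn s U ∧ ∀ z, s z ^ 2 = h z

theorem isOpen_An (a b : ℝ) : IsOpen (An a b) :=
  (isOpen_lt continuous_const continuous_norm).inter (isOpen_lt continuous_norm continuous_const)

end Vale.Agent.P116.W
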