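import Vale.Agent.P116.W.Bas

/-! P116 W/Four: Laurent splitting and a Fourier criterion. -/

open Metric Set Filter Function Topology Complex
open scoped ComplexConjugate Real

noncomputable section

namespace Vale.Agent.P116.W

/-- The Cauchy integral over the circle of radius `r`. -/
def cau_four (h : ℂ → ℂ) (r : ℝ) (z : ℂ) : ℂ := (2 * π * I : ℂ)⁻¹ • ∮ w in C(0, r), (w - z)⁻¹ • h w

theorem diff_four {h : ℂ → ℂ} {r : ℝ} (hr : 0 < r) (hc : ContinuousOn h (sphere 0 r)) {z : ℂ}
    (hz : ‖z‖ ≠ r) : DifferentiableAt ℂ (cau_four h r) z := by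
  have hm : ∀ θ, circleMap 0 r θ ∈ sphere (0 : ℂ) r := circleMap_mem_sphere 0 hr.le
  have hn : ∀ θ, ‖circleMap 0 r θ‖ = r := fun θ => by simpa using hm θ
  set g : ℝ → ℂ := fun θ => deriv (circleMap 0 r) θ * h (circleMap 0 r θ) with hg
  have gc : Continuous g := by
    refine Continuous.mul ?_ (hc.comp_continuous (continuous_circleMap 0 r) hm)
    rw [show deriv (circleMap 0 r) = fun θ => circleMap 0 r θ * I from funext (deriv_circleMap 0 r)]
    exact (continuous_circleMap 0 r).mul continuous_const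
  set ε := |‖z‖ - r| / 2 with hε
  have ε0 : 0 < ε := half_pos (abs_pos.2 (sub_ne_zero.2 hz))
  have far : ∀ θ, ∀ x ∈ ball z ε, ε ≤ ‖circleMap 0 r θ - x‖ := by
    intro θ x hx
    have h1 := abs_norm_sub_norm_le z (circleMap 0 r θ)
    have h2 := norm_sub_le_norm_sub_add_norm_sub z x (circleMap 0 r θ)
    rw [mem_ball, dist_comm, dist_eq_norm] at hx
    rw [hn] at h1
    rw [norm_sub_rev x] at h2
    linarith
  have ne : ∀ θ, ∀ x ∈ ball z ε, circleMap 0 r θ - x ≠ 0 := fun θ x hx =>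
    norm_pos_iff.1 (ε0.trans_le (far θ x hx))
  have ci : ∀ x ∈ ball z ε, Continuous fun θ => (circleMap 0 r θ - x)⁻¹ := fun x hx =>
    ((continuous_circleMap 0 r).sub continuous_const).inv₀ fun θ => ne θ x hx
  have key := intervalIntegral.hasDerivAt_integral_of_dominated_loc_of_deriv_le
    (μ := MeasureTheory.volume) (a := 0) (b := 2 * π)
    (F := fun x θ => (circleMap 0 r θ - x)⁻¹ * g θ)
    (F' := fun x θ => (circleMap 0 r θ - x)⁻¹ ^ 2 * g θ) (bound := fun θ => ε⁻¹ ^ 2 * ‖g θ‖)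
    (ball_mem_nhds z ε0)
    (by
      filter_upwards [ball_mem_nhds z ε0] with x hx
      exact ((ci x hx).mul gc).aestronglyMeasurable)
    (((ci z (mem_ball_self ε0)).mul gc).intervalIntegrable _ _)
    (((ci z (mem_ball_self ε0)).pow 2).mul gc).aestronglyMeasurable
    (Eventually.of_forall fun θ _ x hx => by
      rw [norm_mul, norm_pow, norm_inv]
      gcongr
      exact far θ x hx)
    ((continuous_const.mul gc.norm).intervalIntegrable _ _)
    (Eventually.of_forall fun θ _ x hx => by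
      have h1 := (((hasDerivAt_id x).const_sub (circleMap 0 r θ)).inv (ne θ x hx)).mul_const (g θ)
      refine h1.congr_deriv ?_
      simp only [id, neg_neg, one_div, inv_pow])
  have e : cau_four h r = fun x => (2 * π * I : ℂ)⁻¹ •
      ∫ θ in (0 : ℝ)..2 * π, (circleMap 0 r θ - x)⁻¹ * g θ := by
    funext x
    unfold cau_four circleIntegral
    congr 2
    funext θ
    simp only [hg, smul_eq_mul]
    ring
  rw [e]
  exact key.2.differentiableAt.fun_const_smul _

theorem ann_four {f : ℂ → ℂ} {U : Set ℂ} {r R : ℝ} (hr : 0 < r) (hle : r ≤ R) (hU : IsOpen U)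
    (hs : ∀ w, r ≤ ‖w‖ → ‖w‖ ≤ R → w ∈ U) (hd : DifferentiableOn ℂ f U) :
    (∮ w in C(0, R), f w) = ∮ w in C(0, r), f w := by
  refine circleIntegral_eq_of_differentiable_on_annulus_off_countable hr hle countable_empty
    (hd.continuousOn.mono fun w hw => hs w ?_ ?_) fun w hw => hd.differentiableAt (hU.mem_nhds
      (hs w ?_ ?_))
  · simpa using hw.2
  · simpa using hw.1
  · have := hw.1.2
    rw [mem_closedBall_zero_iff, not_le] at this
    exact this.le
  · exact (mem_ball_zero_iff.1 hw.1.1).le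

theorem same_four {h : ℂ → ℂ} {a b r R : ℝ} (ha : 0 < a) (hd : DifferentiableOn ℂ h (An a b))
    (h1 : a < r) (h2 : r < b) (h3 : a < R) (h4 : R < b) {z : ℂ}
    (hz : (‖z‖ < r ∧ ‖z‖ < R) ∨ (r < ‖z‖ ∧ R < ‖z‖)) : cau_four h R z = cau_four h r z := by
  wlog hle : r ≤ R generalizing r R
  · exact (this h3 h4 h1 h2 (hz.imp And.symm And.symm) (not_le.1 hle).le).symm
  unfold cau_four
  congr 1
  refine ann_four (U := An a b ∩ {z}ᶜ) (ha.trans h1) hle ((isOpen_An a b).inter isOpen_compl_singleton)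
    (fun w k1 k2 => ⟨⟨h1.trans_le k1, k2.trans_lt h4⟩, ?_⟩) ?_
  · rintro rfl
    rcases hz with hz | hz
    · linarith [hz.1]
    · linarith [hz.2]
  · exact ((differentiableOn_id.sub_const z).inv fun w hw => sub_ne_zero.2 hw.2).smul
      (hd.mono inter_subset_left)

theorem jump_four {h : ℂ → ℂ} {a b r R : ℝ} (ha : 0 < a) (hd : DifferentiableOn ℂ h (An a b))
    (h1 : a < r) (h4 : R < b) {z : ℂ} (k1 : r < ‖z‖) (k2 : ‖z‖ < R) :
    h z = cau_four h R z - cau_four h r z := by
  have hr : 0 < r := ha.trans h1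
  have hz : z ∈ An a b := ⟨h1.trans k1, k2.trans h4⟩
  have e := ann_four hr (k1.trans k2).le (isOpen_An a b)
    (fun w l1 l2 => ⟨h1.trans_le l1, l2.trans_lt h4⟩)
    ((differentiableOn_dslope ((isOpen_An a b).mem_nhds hz)).2 hd)
  have split : ∀ s, a < s → s < b → s ≠ ‖z‖ → (∮ w in C(0, s), dslope h z w) =
      (∮ w in C(0, s), (w - z)⁻¹ • h w) - (∮ w in C(0, s), (w - z)⁻¹) • h z := by
    intro s s1 s2 s3
    have s0 : 0 ≤ s := (ha.trans s1).le
    have ne : ∀ w ∈ sphere (0 : ℂ) s, w ≠ z := fun w hw e => s3 (by rw [← e]; simpa using hw.symm)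
    have ci : ContinuousOn (fun w : ℂ => (w - z)⁻¹) (sphere 0 s) :=
      (continuousOn_id.sub continuousOn_const).inv₀ fun w hw => sub_ne_zero.2 (ne w hw)
    have ch : ContinuousOn h (sphere 0 s) := hd.continuousOn.mono fun w hw => by
      have : ‖w‖ = s := by simpa using hw
      exact ⟨this ▸ s1, this ▸ s2⟩
    have i1 : CircleIntegrable (fun w => (w - z)⁻¹ • h w) 0 s := (ci.smul ch).circleIntegrable s0
    have i2 : CircleIntegrable (fun w => (w - z)⁻¹ • h z) 0 s :=
      (ci.smul continuousOn_const).circleIntegrable s0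
    rw [← circleIntegral.integral_smul_const, ← circleIntegral.integral_sub i1 i2]
    refine circleIntegral.integral_congr s0 fun w hw => ?_
    simp only [dslope_of_ne _ (ne w hw), slope_def_module, smul_sub]
  have z0 : (∮ w in C(0, r), (w - z)⁻¹) = 0 := by
    have ne : ∀ w ∈ closedBall (0 : ℂ) r, w - z ≠ 0 := fun w hw e => by
      rw [sub_eq_zero.1 e, mem_closedBall_zero_iff] at hw
      linarith
    exact circleIntegral_eq_zero_of_differentiable_on_off_countable hr.le countable_empty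
      ((continuousOn_id.sub continuousOn_const).inv₀ ne) fun w hw =>
        (differentiableAt_id.sub_const z).inv (ne w (ball_subset_closedBall hw.1))
  rw [split R (hz.1.trans k2) h4 k2.ne', split r h1 (k1.trans hz.2) k1.ne, z0,
    circleIntegral.integral_sub_inv_of_mem_ball (mem_ball_zero_iff.2 k2)] at e
  unfold cau_four
  rw [← smul_sub, eq_inv_smul_iff₀ two_pi_I_ne_zero]
  rw [zero_smul, sub_zero, sub_eq_iff_eq_add'] at e
  rw [e, add_sub_cancel_right]

theorem lim_four {h : ℂ → ℂ} {r : ℝ} (hr : 0 < r) (hc : ContinuousOn h (sphere 0 r)) :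
    Tendsto (cau_four h r) (cocompact ℂ) (𝓝 0) := by
  obtain ⟨C, hC⟩ := (isCompact_sphere (0 : ℂ) r).exists_bound_of_continuousOn hc
  have t0 : Tendsto (fun z : ℂ => ‖z‖ - r) (cocompact ℂ) atTop :=
    tendsto_atTop_add_const_right _ (-r) tendsto_norm_cocompact_atTop
  have t1 : Tendsto (fun z : ℂ => r * ((‖z‖ - r)⁻¹ * C)) (cocompact ℂ) (𝓝 (r * (0 * C))) :=
    (t0.inv_tendsto_atTop.mul_const C).const_mul r
  rw [zero_mul, mul_zero] at t1
  refine squeeze_zero_norm' ?_ t1
  filter_upwards [t0.eventually_gt_atTop 0] with z hz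
  refine circleIntegral.norm_two_pi_i_inv_smul_integral_le_of_norm_le_const hr.le fun w hw => ?_
  have hw' : ‖w‖ = r := by simpa using hw
  have h1 : ‖z‖ - r ≤ ‖w - z‖ := by
    rw [norm_sub_rev, ← hw']
    exact norm_sub_norm_le z w
  rw [norm_smul, norm_inv]
  exact mul_le_mul (inv_anti₀ hz h1) (hC w hw) (norm_nonneg _) (inv_nonneg.2 hz.le)

/-- Laurent splitting. `P z = (2 π i)⁻¹ ∮_{|ζ| = s} h ζ / (ζ - z)` for any `max a ‖z‖ < s < b`,
`N z = h z - P z` on the annulus and `-(2 π i)⁻¹ ∮_{|ζ| = s} h ζ / (ζ - z)` for `a < s < min b ‖z‖`.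
Tools: `circleIntegral_eq_of_differentiable_on_annulus_off_countable` applied to `dslope h z`,
`circleIntegral.integral_sub_inv_of_mem_ball`, `hasFPowerSeriesOn_cauchy_integral`; for `N` use
`w ↦ N (1 / w)` or differentiate under the integral sign. -/
theorem laurent {h : ℂ → ℂ} {a b : ℝ} (ha : 0 < a) (hab : a < b)
    (hd : DifferentiableOn ℂ h (An a b)) :
    ∃ P N : ℂ → ℂ, DifferentiableOn ℂ P (ball 0 b) ∧ DifferentiableOn ℂ N {z | a < ‖z‖} ∧
      Tendsto N (cocompact ℂ) (𝓝 0) ∧ ∀ z ∈ An a b, h z = P z + N z := by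
  have ch : ∀ s, a < s → s < b → ContinuousOn h (sphere 0 s) := fun s s1 s2 =>
    hd.continuousOn.mono fun w hw => by
      have : ‖w‖ = s := by simpa using hw
      exact ⟨this ▸ s1, this ▸ s2⟩
  have p1 : ∀ z : ℂ, ‖z‖ < b → a < (max a ‖z‖ + b) / 2 ∧ (max a ‖z‖ + b) / 2 < b ∧
      ‖z‖ < (max a ‖z‖ + b) / 2 := fun z hz => by
    have := le_max_left a ‖z‖
    have := le_max_right a ‖z‖
    have := max_lt hab hz
    exact ⟨by linarith, by linarith, by linarith⟩
  have p2 : ∀ z : ℂ, a < ‖z‖ → a < (a + min b ‖z‖) / 2 ∧ (a + min b ‖z‖) / 2 < b ∧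
      (a + min b ‖z‖) / 2 < ‖z‖ := fun z hz => by
    have := min_le_left b ‖z‖
    have := min_le_right b ‖z‖
    have := lt_min hab hz
    exact ⟨by linarith, by linarith, by linarith⟩
  refine ⟨fun z => cau_four h ((max a ‖z‖ + b) / 2) z, fun z => -cau_four h ((a + min b ‖z‖) / 2) z,
    fun z hz => ?_, fun z hz => ?_, ?_, fun z hz => ?_⟩
  · rw [mem_ball_zero_iff] at hz
    obtain ⟨q1, q2, q3⟩ := p1 z hz
    refine ((diff_four (ha.trans q1) (ch _ q1 q2) q3.ne).congr_of_eventuallyEq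
      ?_).differentiableWithinAt
    filter_upwards [(isOpen_lt continuous_norm continuous_const).mem_nhds q3] with w hw
    obtain ⟨r1, r2, r3⟩ := p1 w (lt_trans hw q2)
    exact same_four ha hd q1 q2 r1 r2 (Or.inl ⟨hw, r3⟩)
  · obtain ⟨q1, q2, q3⟩ := p2 z hz
    refine ((diff_four (ha.trans q1) (ch _ q1 q2) q3.ne').neg.congr_of_eventuallyEq
      ?_).differentiableWithinAt
    filter_upwards [(isOpen_lt continuous_const continuous_norm).mem_nhds q3] with w hw
    obtain ⟨r1, r2, r3⟩ := p2 w (lt_trans q1 hw)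
    exact congrArg Neg.neg (same_four ha hd q1 q2 r1 r2 (Or.inr ⟨hw, r3⟩))
  · have t := (lim_four (r := (a + b) / 2) (by linarith) (ch _ (by linarith) (by linarith))).neg
    rw [neg_zero] at t
    refine t.congr' ?_
    filter_upwards [(tendsto_norm_cocompact_atTop (E := ℂ)).eventually_ge_atTop b] with z hz
    rw [min_eq_left hz]
  · obtain ⟨-, q2, q3⟩ := p1 z hz.2
    obtain ⟨r1, -, r3⟩ := p2 z hz.1
    rw [jump_four ha hd r1 q2 r3 q3, sub_eq_add_neg]

end Vale.Agent.P116.W
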