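import Vale.Agent.P116.W.Bas

/-! P116 W/Four2: a holomorphic function whose imaginary part tends weakly to zero is a real constant. -/

open Metric Set Filter Function Topology Complex
open scoped ComplexConjugate Real

noncomputable section

namespace Vale.Agent.P116.W

theorem cauchy_four2 {Φ : ℂ → ℂ} {s : ℝ} (hs : 0 < s) (hd : DifferentiableOn ℂ Φ (closedBall 0 s))
    (n : ℕ) : ∫ θ in (0 : ℝ)..2 * π, Φ (s * exp (θ * I)) * exp (-(n * θ * I)) =
      2 * π * s ^ n / n.factorial * iteratedDeriv n Φ 0 := by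
  have h := hd.circleIntegral_one_div_sub_center_pow_smul hs n
  have hs' : (s : ℂ) ≠ 0 := ofReal_ne_zero.2 hs.ne'
  have e : ∀ θ : ℝ, Φ (s * exp (θ * I)) * exp (-(n * θ * I)) = (s ^ n / I) *
      (deriv (circleMap 0 s) θ • (1 / (circleMap 0 s θ - 0) ^ (n + 1)) • Φ (circleMap 0 s θ)) := by
    intro θ
    have h1 : exp (-(n * θ * I)) = (exp (θ * I) ^ n)⁻¹ := by
      rw [exp_neg, mul_assoc, exp_nat_mul]
    have h2 := exp_ne_zero (θ * I)
    rw [deriv_circleMap, h1, circleMap_zero, smul_eq_mul, smul_eq_mul, sub_zero, mul_pow]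
    field_simp
    ring
  simp_rw [e]
  rw [intervalIntegral.integral_const_mul]
  unfold circleIntegral at h
  rw [h, smul_eq_mul]
  field_simp

theorem neg_four2 {Φ : ℂ → ℂ} {s : ℝ} (hs : 0 < s) (hd : DifferentiableOn ℂ Φ (closedBall 0 s))
    {n : ℕ} (hn : n ≠ 0) : ∫ θ in (0 : ℝ)..2 * π, Φ (s * exp (θ * I)) * exp (n * θ * I) = 0 := by
  have h := cauchy_four2 (Φ := fun z => z ^ n * Φ z) hs ((differentiableOn_pow n).mul hd) 0
  have hs' : (s : ℂ) ^ n ≠ 0 := pow_ne_zero _ (ofReal_ne_zero.2 hs.ne')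
  have e : ∀ θ : ℝ, (s * exp (θ * I)) ^ n * Φ (s * exp (θ * I)) * exp (-((0 : ℕ) * θ * I)) =
      s ^ n * (Φ (s * exp (θ * I)) * exp (n * θ * I)) := by
    intro θ
    rw [mul_assoc (n : ℂ), exp_nat_mul, mul_pow]
    simp only [Nat.cast_zero, zero_mul, neg_zero, exp_zero]
    ring
  simp only [e] at h
  rw [intervalIntegral.integral_const_mul, iteratedDeriv_zero, zero_pow hn, zero_mul,
    mul_zero] at h
  exact (mul_eq_zero.1 h).resolve_left hs'

theorem im_four2 {u : ℝ → ℂ} (hu : Continuous u) (n : ℕ) :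
    ∫ θ in (0 : ℝ)..2 * π, ((u θ).im : ℂ) * exp (-(n * θ * I)) =
      ((∫ θ in (0 : ℝ)..2 * π, u θ * exp (-(n * θ * I))) -
        conj (∫ θ in (0 : ℝ)..2 * π, u θ * exp (n * θ * I))) / (2 * I) := by
  rw [← intervalIntegral.intervalIntegral_conj, ← intervalIntegral.integral_sub
    (Continuous.intervalIntegrable (by fun_prop) _ _)
    (Continuous.intervalIntegrable (by fun_prop) _ _), ← intervalIntegral.integral_div]
  refine intervalIntegral.integral_congr fun θ _ => ?_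
  simp only [map_mul, ← exp_conj, conj_I, conj_ofReal, map_natCast, mul_neg]
  rw [im_eq_sub_conj]
  ring

/-- With `Φ = ∑ φ n z ^ n` (`DifferentiableOn.hasFPowerSeriesOnBall`, `cauchyPowerSeries`), for
`n ≥ 1`: `∫ Φ (s e^{iθ}) e^{-inθ} = 2 π φ n s ^ n` and `∫ Φ (s e^{iθ}) e^{inθ} = 0` (Cauchy), so the
integral below is `π φ n s ^ n / i`; for `n = 0` it is `2 π (φ 0).im`. Hence all derivatives at `0`
vanish; identity theorem. -/
theorem const_of_im {Φ : ℂ → ℂ} {b : ℝ} (hb : 0 < b) (hd : DifferentiableOn ℂ Φ (ball 0 b))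
    (h : ∀ n : ℕ, Tendsto (fun s : ℝ => ∫ θ in (0 : ℝ)..2 * π,
      ((Φ (s * exp (θ * I))).im : ℂ) * exp (-(n * θ * I))) (𝓝[<] b) (𝓝 0)) :
    ∃ c : ℝ, ∀ z ∈ ball (0 : ℂ) b, Φ z = c := by
  have hc : ∀ s ∈ Ioo (0 : ℝ) b, DifferentiableOn ℂ Φ (closedBall 0 s) := fun s hs =>
    hd.mono (closedBall_subset_ball hs.2)
  have hu : ∀ s ∈ Ioo (0 : ℝ) b, Continuous fun θ : ℝ => Φ (s * exp (θ * I)) := fun s hs =>
    (hc s hs).continuousOn.comp_continuous (by fun_prop) fun θ => by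
      rw [mem_closedBall_zero_iff, norm_mul, norm_exp_ofReal_mul_I, mul_one, norm_real,
        Real.norm_of_nonneg hs.1.le]
  have hI : Ioo (0 : ℝ) b ∈ 𝓝[<] b := Ioo_mem_nhdsLT hb
  have hπ : (π : ℂ) ≠ 0 := ofReal_ne_zero.2 Real.pi_ne_zero
  have h0 : (Φ 0).im = 0 := by
    have h1 : Tendsto (fun _ : ℝ => 2 * π * ((Φ 0).im : ℂ)) (𝓝[<] b) (𝓝 0) := by
      refine (h 0).congr' ?_
      filter_upwards [hI] with s hs
      have h2 := cauchy_four2 hs.1 (hc s hs) 0
      rw [im_four2 (hu s hs) 0]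
      simp only [Nat.cast_zero, zero_mul, neg_zero] at h2 ⊢
      rw [h2, im_eq_sub_conj]
      simp only [pow_zero, Nat.factorial_zero, Nat.cast_one, iteratedDeriv_zero, mul_one, div_one,
        map_mul, conj_ofReal, map_ofNat]
      ring
    have h2 := tendsto_nhds_unique tendsto_const_nhds h1
    simpa [hπ] using h2
  have hn : ∀ n : ℕ, n ≠ 0 → iteratedDeriv n Φ 0 = 0 := fun n hn => by
    have h1 : Tendsto (fun s : ℝ => 2 * π * (s : ℂ) ^ n / n.factorial * iteratedDeriv n Φ 0 /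
        (2 * I)) (𝓝[<] b) (𝓝 0) := by
      refine (h n).congr' ?_
      filter_upwards [hI] with s hs
      rw [im_four2 (hu s hs) n, cauchy_four2 hs.1 (hc s hs) n, neg_four2 hs.1 (hc s hs) hn,
        map_zero, sub_zero]
    have h3 : Continuous fun s : ℝ => 2 * π * (s : ℂ) ^ n / n.factorial * iteratedDeriv n Φ 0 /
        (2 * I) := by fun_prop
    have h2 := tendsto_nhds_unique ((h3.tendsto b).mono_left nhdsWithin_le_nhds) h1
    simpa [hπ, hb.ne', Nat.factorial_ne_zero] using h2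
  refine ⟨(Φ 0).re, fun z hz => ?_⟩
  rw [← taylorSeries_eq_on_ball' hz hd, tsum_eq_single 0 fun n h0 => by simp [hn n h0]]
  apply Complex.ext <;> simp [h0]

end Vale.Agent.P116.W
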