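import Vale.Agent.P116.W.Step

/-! P116 W/Iter: extensions to arbitrarily large annuli. -/

open Metric Set Filter Function Topology Complex
open scoped ComplexConjugate Real

noncomputable section

namespace Vale.Agent.P116.W

/-- `rmt` with `End.hasSqrt`, `End.map`, `End.refl`. -/
theorem End.step {K : Set ℂ} {e : ℂ → ℂ} {a a' b : ℝ} (h : End K e a b)
    (hb : Bornology.IsBounded (K ∪ e '' An a b)) (h1 : a < a') (h2 : a' < b) :
    ∃ G e' : ℂ → ℂ, DifferentiableOn ℂ G (K ∪ e '' An a b) ∧ InjOn G (K ∪ e '' An a b) ∧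
      EqOn e' (G ∘ e) (An a b) ∧ End (G '' K) e' a (b ^ 2 / a') ∧
      Bornology.IsBounded (G '' K ∪ e' '' An a (b ^ 2 / a')) := by
  obtain ⟨p, hp⟩ := h.ne
  obtain ⟨G, g1, g2, g3, g4⟩ := rmt (h.op b h.lt le_rfl) h.con h.hasSqrt hb (Or.inl hp)
  obtain ⟨e', e1, e2, e3⟩ := (h.map g1 g2).refl (by rw [image_comp, ← image_union, g4])
    ⟨p, hp, g3⟩ h1 h2
  exact ⟨G, e', g1, g2, e1, e2, e3⟩

theorem End.pow_Iter {K : Set ℂ} {e : ℂ → ℂ} {a a' b : ℝ} (h : End K e a b)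
    (hb : Bornology.IsBounded (K ∪ e '' An a b)) (h1 : a < a') (h2 : a' < b) (k : ℕ) :
    ∃ (G e' : ℂ → ℂ) (r : ℝ), b * (b / a') ^ k ≤ r ∧ DifferentiableOn ℂ G (K ∪ e '' An a b) ∧
      InjOn G (K ∪ e '' An a b) ∧ EqOn e' (G ∘ e) (An a b) ∧ End (G '' K) e' a r ∧
      Bornology.IsBounded (G '' K ∪ e' '' An a r) := by
  have h0 : 0 < a' := h.pos.trans h1
  have h3 : 0 < b := h0.trans h2
  have h4 : 1 ≤ b / a' := (one_le_div h0).2 h2.le
  induction k with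
  | zero =>
    refine ⟨id, e, b, by simp, differentiableOn_id, injOn_id _, fun _ _ => rfl, ?_, ?_⟩ <;>
      rwa [image_id]
  | succ k ih =>
    obtain ⟨G, e', r, r1, g1, g2, g3, g4, g5⟩ := ih
    have h5 : b ≤ r := (le_mul_of_one_le_right h3.le (one_le_pow₀ h4)).trans r1
    obtain ⟨G', e'', f1, f2, f3, f4, f5⟩ := g4.step g5 h1 (h2.trans_le h5)
    have h6 : An a b ⊆ An a r := fun z hz => ⟨hz.1, hz.2.trans_le h5⟩
    have h7 : MapsTo G (K ∪ e '' An a b) (G '' K ∪ e' '' An a r) := by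
      rintro x (hx | ⟨z, hz, rfl⟩)
      · exact Or.inl ⟨x, hx, rfl⟩
      · exact Or.inr ⟨z, h6 hz, g3 hz⟩
    refine ⟨G' ∘ G, e'', r ^ 2 / a', ?_, f1.comp g1 h7, f2.comp g2 h7, fun z hz => ?_, ?_, ?_⟩
    · rw [pow_succ, ← mul_assoc, sq, mul_div_assoc]
      exact mul_le_mul r1 (div_le_div_of_nonneg_right h5 h0.le) (by positivity) (h3.le.trans h5)
    · rw [f3 (h6 hz), comp_apply, g3 hz]
      rfl
    · rwa [image_comp]
    · rwa [image_comp]

/-- Induction on `k` with outer radius `b * (b / a') ^ k` (use `End.mono` after `End.step`, since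
`R ^ 2 / a' ≥ R * (b / a')` for `R ≥ b`), `a' = (a + b) / 2`; compose the maps `G`. -/
theorem End.iter {K : Set ℂ} {e : ℂ → ℂ} {a b : ℝ} (h : End K e a b)
    (hb : Bornology.IsBounded (K ∪ e '' An a b)) (R : ℝ) (hR : b ≤ R) :
    ∃ G e' : ℂ → ℂ, DifferentiableOn ℂ G (K ∪ e '' An a b) ∧ InjOn G (K ∪ e '' An a b) ∧
      EqOn e' (G ∘ e) (An a b) ∧ End (G '' K) e' a R := by
  have h0 := h.pos
  have h1 := h.lt
  have h2 : 1 < b / ((a + b) / 2) := (one_lt_div (by linarith)).2 (by linarith)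
  obtain ⟨k, hk⟩ := pow_unbounded_of_one_lt (R / b) h2
  obtain ⟨G, e', r, r1, g1, g2, g3, g4, -⟩ :=
    h.pow_Iter hb (a' := (a + b) / 2) (by linarith) (by linarith) k
  rw [div_lt_iff₀' (by linarith)] at hk
  exact ⟨G, e', g1, g2, g3, g4.mono (by linarith) (by linarith)⟩

end Vale.Agent.P116.W
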