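import Vale.Agent.P116.W.Norm

/-! P116 W/Lim1: the limit of the reciprocals. -/

open Metric Set Filter Function Topology Complex
open scoped ComplexConjugate Real

noncomputable section

namespace Vale.Agent.P116.W

theorem mon_Lim1 {U : Set ℂ} (hU : IsOpen U) {g : ℕ → ℂ → ℂ} {M : ℝ} (φ : Ultrafilter ℕ)
    (h : ∀ᶠ n in φ, DifferentiableOn ℂ (g n) U ∧ ∀ z ∈ U, ‖g n z‖ ≤ M) :
    ∃ G, TendstoLocallyUniformlyOn g G φ U := by
  classical
  have hM : (0 : ℝ) < |M| + 1 := by positivity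
  have hc : ((|M| + 1 : ℝ) : ℂ) ≠ 0 := by exact_mod_cast hM.ne'
  obtain ⟨G, hG⟩ := P071.RMT.montel hU
    (fun n => if DifferentiableOn ℂ (g n) U ∧ ∀ z ∈ U, ‖g n z‖ ≤ M then
      fun z => ((|M| + 1 : ℝ) : ℂ)⁻¹ * g n z else fun _ => 0)
    (fun n => by
      split_ifs with hn
      · exact hn.1.const_mul _
      · exact differentiableOn_const _)
    (fun n z hz => by
      split_ifs with hn
      · rw [mem_ball_zero_iff, norm_mul, norm_inv, Complex.norm_real, Real.norm_of_nonneg hM.le,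
          inv_mul_lt_iff₀ hM]
        linarith [hn.2 z hz, le_abs_self M]
      · exact mem_ball_self one_pos) φ
  refine ⟨_, ((uniformContinuous_const_smul ((|M| + 1 : ℝ) : ℂ)).comp_tendstoLocallyUniformlyOn
    hG).congr_inseparable (h.mono fun n hn z _ => .of_eq ?_)⟩
  simp only [if_pos hn, Function.comp, smul_eq_mul]
  exact mul_inv_cancel_left₀ hc _

theorem hur_Lim1 {U V : Set ℂ} (hU : IsOpen U) (hc : IsPreconnected U) (hV : IsOpen V)
    (hVU : V ⊆ U) {φ : Filter ℕ} [φ.NeBot] {h : ℕ → ℂ → ℂ} {H : ℂ → ℂ}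
    (hH : DifferentiableOn ℂ H U) {x : ℂ} (hx : x ∈ U) (hx0 : H x ≠ 0)
    (hd : ∀ᶠ n in φ, DifferentiableOn ℂ (h n) V ∧ ∀ z ∈ V, h n z ≠ 0)
    (ht : TendstoLocallyUniformlyOn h H φ V) : ∀ z ∈ V, H z ≠ 0 := by
  classical
  intro z hz h0
  have h1 := P071.RMT.hurwitz hV
    (h := fun n => if DifferentiableOn ℂ (h n) V ∧ ∀ z ∈ V, h n z ≠ 0 then h n else fun _ => 1)
    (fun n => by
      split_ifs with hn
      · exact hn.1
      · exact differentiableOn_const _)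
    (fun n y hy => by
      split_ifs with hn
      · exact hn.2 y hy
      · exact one_ne_zero)
    (ht.congr_inseparable (hd.mono fun n hn y _ => .of_eq (by rw [if_pos hn]))) hz h0
  exact hx0 ((hH.analyticOnNhd hU).eqOn_zero_of_preconnected_of_eventuallyEq_zero hc (hVU hz) h1 hx)

theorem lin_Lim1 {V : Set ℂ} {φ : Filter ℕ} {g : ℕ → ℂ → ℂ} {G f : ℂ → ℂ} {c : ℕ → ℂ} {c₀ : ℂ}
    (A : ℂ) (ht : TendstoLocallyUniformlyOn g G φ V) (hG : ContinuousOn G V)
    (hc : Tendsto c φ (𝓝 c₀)) (hf : ContinuousOn f V) :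
    TendstoLocallyUniformlyOn (fun n x => g n x * A - c n * f x) (fun x => G x * A - c₀ * f x)
      φ V := by
  have k : ∀ u : ℂ → ℂ, TendstoLocallyUniformlyOn (fun _ : ℕ => u) u φ V := fun u _ hU _ _ =>
    ⟨V, self_mem_nhdsWithin, Eventually.of_forall fun _ _ _ => refl_mem_uniformity hU⟩
  exact (ht.mul₀ (k fun _ => A) hG continuousOn_const).sub
    ((hc.tendstoUniformlyOn_const V).tendstoLocallyUniformlyOn.mul₀ (k f) continuousOn_const hf)

/-- Montel for a family that is eventually defined on every bounded part of `{m < ‖z‖}` (apply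
`P071.RMT.montel` on `An m R` to `if R ≤ Rn n then g n / 2 else 0`). -/
theorem montel_out {m : ℝ} {g : ℕ → ℂ → ℂ} {Rn : ℕ → ℝ} (hR : Tendsto Rn atTop atTop)
    (hd : ∀ n, DifferentiableOn ℂ (g n) (An m (Rn n))) (hb : ∀ n, ∀ z ∈ An m (Rn n), ‖g n z‖ ≤ 1)
    (φ : Ultrafilter ℕ) (hφ : (φ : Filter ℕ) ≤ atTop) :
    ∃ ψ : ℂ → ℂ, DifferentiableOn ℂ ψ {z | m < ‖z‖} ∧ (∀ z, m < ‖z‖ → ‖ψ z‖ ≤ 1) ∧
      TendstoLocallyUniformlyOn g ψ φ {z | m < ‖z‖} := by
  have hev : ∀ R : ℝ, ∀ᶠ n in φ, DifferentiableOn ℂ (g n) (An m R) ∧ ∀ z ∈ An m R, ‖g n z‖ ≤ 1 :=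
    fun R => ((hR.eventually_ge_atTop R).filter_mono hφ).mono fun n hn =>
      have hs : An m R ⊆ An m (Rn n) := fun _ hz => ⟨hz.1, hz.2.trans_le hn⟩
      ⟨(hd n).mono hs, fun z hz => hb n z (hs hz)⟩
  have h1 : ∀ R : ℝ, TendstoLocallyUniformlyOn g (fun z => limUnder φ fun n => g n z) φ (An m R) := by
    intro R
    obtain ⟨G, hG⟩ := mon_Lim1 (isOpen_An m R) φ (hev R)
    exact hG.congr_right fun z hz => (hG.tendsto_at hz).limUnder_eq.symm
  have hm : ∀ z : ℂ, m < ‖z‖ → z ∈ An m (‖z‖ + 1) := fun z hz => ⟨hz, lt_add_one _⟩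
  have hU : {z : ℂ | m < ‖z‖} = ⋃ R : ℝ, An m R :=
    Subset.antisymm (fun z hz => mem_iUnion.2 ⟨_, hm z hz⟩) (iUnion_subset fun _ _ hz => hz.1)
  refine ⟨fun z => limUnder φ fun n => g n z, fun z hz => ?_, fun z hz => ?_, ?_⟩
  · exact (((h1 _).differentiableOn ((hev _).mono fun _ hn => hn.1)
      (isOpen_An _ _)).differentiableAt ((isOpen_An _ _).mem_nhds (hm z hz))).differentiableWithinAt
  · exact le_of_tendsto ((h1 _).tendsto_at (hm z hz)).norm
      ((hev _).mono fun _ hn => hn.2 z (hm z hz))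
  · rw [hU]
    exact tendstoLocallyUniformlyOn_iUnion (isOpen_An m) h1

/-- Take `End.norm` with `R = b + n`, the limits `q` of `q n` (Montel after scaling) and `ψ` of
`(e' n)⁻¹`. `q` is not identically zero (a limit point of the points of the sphere, or locally
uniform convergence on the compact sphere), and the `q n` have no zeros, so by `P071.RMT.hurwitz`
and the identity theorem `q p ≠ 0`. The three injectivity statements: `hurwitz` for
`q n w - c n * (w - p)` (never locally zero in the limit because the value at `p` is `q p`), and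
for `(e' n z)⁻¹ - (e' n z₀)⁻¹` on `An m R \ {z₀}` (`hurwitz` needs all `n`: replace the finitely
many bad terms by `1`). -/
theorem End.lim {K : Set ℂ} {e : ℂ → ℂ} {a b m : ℝ} (h : End K e a b)
    (hb : Bornology.IsBounded (K ∪ e '' An a b)) (h1 : a < m) (h2 : m < b) {p : ℂ} (hp : p ∈ K) :
    ∃ q ψ : ℂ → ℂ, DifferentiableOn ℂ q (K ∪ e '' An a b) ∧ q p ≠ 0 ∧
      DifferentiableOn ℂ ψ {z | m < ‖z‖} ∧ (∀ z, m < ‖z‖ → ‖ψ z‖ ≤ 1) ∧
      (∀ z ∈ An m b, q (e z) = ψ z * (e z - p)) ∧ InjOn ψ {z | m < ‖z‖} ∧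
      (∀ w ∈ K ∪ e '' An a b, ∀ w' ∈ K ∪ e '' An a b, q w * (w' - p) = q w' * (w - p) → w = w') ∧
      ∀ w ∈ K ∪ e '' An a b, ∀ z, m < ‖z‖ → q w = ψ z * (w - p) → ‖z‖ < b ∧ w = e z := by
  have hU := h.op b h.lt le_rfl
  have hpU : p ∈ K ∪ e '' An a b := Or.inl hp
  obtain ⟨δ, hδ, hs⟩ := Metric.nhds_basis_closedBall.mem_iff.1
    ((h.op m h1 h2.le).mem_nhds (Or.inl hp))
  have hbR : ∀ n : ℕ, b ≤ b + n := fun n => le_add_of_nonneg_right (Nat.cast_nonneg n)
  choose G e' q hG hGi he hE hGp hq hqw hsp hlo using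
    fun n : ℕ => h.norm hb h1 h2 hp hδ hs (b + n) (hbR n)
  obtain ⟨M, hM⟩ := hb.subset_closedBall p
  have hφ : ((Ultrafilter.of atTop : Ultrafilter ℕ) : Filter ℕ) ≤ atTop := Ultrafilter.of_le _
  generalize (Ultrafilter.of atTop : Ultrafilter ℕ) = φ at hφ
  obtain ⟨Q, hQ⟩ := mon_Lim1 hU φ (M := max δ M) (Eventually.of_forall fun n => ⟨hq n,
    fun w hw => (hqw n w hw).2.2.trans (max_le_max le_rfl (mem_closedBall_iff_norm.1 (hM hw)))⟩)
  have hQd : DifferentiableOn ℂ Q (K ∪ e '' An a b) :=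
    hQ.differentiableOn (Eventually.of_forall hq) hU
  have hR : Tendsto (fun n : ℕ => b + n) atTop atTop :=
    tendsto_atTop_add_const_left _ _ tendsto_natCast_atTop_atTop
  have hsub : ∀ R : ℝ, An m R ⊆ An a R := fun _ _ hz => ⟨h1.trans hz.1, hz.2⟩
  have hne : ∀ n : ℕ, ∀ z ∈ An m (b + n), e' n z ≠ 0 := fun n z hz =>
    norm_pos_iff.1 (one_pos.trans_le (hlo n z hz.1.le hz.2))
  have hinv : ∀ n : ℕ, DifferentiableOn ℂ (fun z => (e' n z)⁻¹) (An m (b + n)) := fun n =>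
    ((hE n).hol.mono (hsub _)).inv (hne n)
  obtain ⟨ψ, hψd, hψb, hψ⟩ := montel_out (g := fun n z => (e' n z)⁻¹) hR hinv
    (fun n z hz => by
      rw [norm_inv]
      exact inv_le_one_of_one_le₀ (hlo n z hz.1.le hz.2)) φ hφ
  have hQ0 : ∀ w ∈ K ∪ e '' An a b, Q w ≠ 0 := by
    have hsU : sphere p δ ⊆ K ∪ e '' An a b := sphere_subset_closedBall.trans (hs.trans
      (union_subset_union_right _ (image_mono fun _ hz => ⟨hz.1, hz.2.trans h2⟩)))
    obtain ⟨n, hn⟩ := (Metric.tendstoUniformlyOn_iff.1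
      ((tendstoLocallyUniformlyOn_iff_forall_isCompact hU).1 hQ _ hsU (isCompact_sphere _ _))
      δ hδ).exists
    obtain ⟨w, hw, hw'⟩ := hsp n
    refine hur_Lim1 hU h.con hU Subset.rfl hQd (hsU hw) (fun h0 => ?_)
      (Eventually.of_forall fun n => ⟨hq n, fun w hw => (hqw n w hw).1⟩) hQ
    have h3 := hn w hw
    rw [h0, dist_zero_left, hw'] at h3
    exact lt_irrefl _ h3
  have hfp : ∀ V : Set ℂ, DifferentiableOn ℂ (fun x : ℂ => x - p) V := fun V =>
    differentiableOn_id.sub_const p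
  have h5 : ∀ z ∈ An m b, Q (e z) = ψ z * (e z - p) := by
    intro z hz
    have hz' : e z ∈ K ∪ e '' An a b := Or.inr ⟨z, hsub b hz, rfl⟩
    refine tendsto_nhds_unique (hQ.tendsto_at hz')
      (((hψ.tendsto_at hz.1).mul_const (e z - p)).congr fun n => ?_)
    have h3 := (hqw n _ hz').2.1
    have h4 : e' n z = G n (e z) := he n (hsub b hz)
    have h6 := hne n z ⟨hz.1, hz.2.trans_le (hbR n)⟩
    rw [← h3, ← h4, mul_comm (q n _), inv_mul_cancel_left₀ h6]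
  have h8 : ∀ w ∈ K ∪ e '' An a b, ∀ z, m < ‖z‖ → Q w = ψ z * (w - p) → ‖z‖ < b ∧ w = e z := by
    intro w hw z hz h0
    by_contra hc
    have hT : IsClosed {x | ‖z‖ < b ∧ x = e z} :=
      ((finite_singleton (e z)).subset fun _ hx => hx.2).isClosed
    refine hur_Lim1 hU h.con (hU.sdiff hT) sdiff_subset
      ((hQd.mul_const 1).sub ((hfp _).const_mul (ψ z))) hpU ?_ ?_
      (lin_Lim1 1 (hQ.mono sdiff_subset) (hQd.continuousOn.mono sdiff_subset) (hψ.tendsto_at hz)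
        (hfp _).continuousOn) w ⟨hw, hc⟩ ?_
    · simpa using hQ0 p hpU
    · filter_upwards [(hR.eventually_gt_atTop ‖z‖).filter_mono hφ] with n hn
      refine ⟨(((hq n).mono sdiff_subset).mul_const 1).sub ((hfp _).const_mul _), fun x hx h3 => ?_⟩
      have hzn : z ∈ An m (b + n) := ⟨hz, hn⟩
      obtain ⟨a1, a2, -⟩ := hqw n x hx.1
      have h4 : e' n z = G n x := by
        rw [mul_one, sub_eq_zero, eq_inv_mul_iff_mul_eq₀ (hne n z hzn), ← a2, mul_comm] at h3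
        exact mul_left_cancel₀ a1 h3
      rcases hx.1 with hK | ⟨y, hy, rfl⟩
      · exact Set.disjoint_left.1 (hE n).dis ⟨x, hK, rfl⟩ ⟨z, hsub _ hzn, h4⟩
      · have h6 : z = y := (hE n).inj (hsub _ hzn) ⟨hy.1, hy.2.trans_le (hbR n)⟩
          (h4.trans (he n hy).symm)
        exact hx.2 ⟨h6 ▸ hy.2, by rw [h6]⟩
    · simp only [mul_one]
      exact sub_eq_zero.2 h0
  refine ⟨Q, ψ, hQd, hQ0 p hpU, hψd, hψb, h5, fun z hz z₀ hz₀ h0 => ?_,
    fun w hw w' hw' h0 => ?_, h8⟩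
  · by_contra hc
    have hm0 : 0 < m := h.pos.trans h1
    have hO : IsOpen {z : ℂ | m < ‖z‖} := isOpen_lt continuous_const continuous_norm
    obtain ⟨x, hx, hx0⟩ : ∃ x : ℂ, m < ‖x‖ ∧ ψ x * 1 - ψ z₀ * 1 ≠ 0 := by
      by_contra hall
      have h3 : ∀ x : ℂ, m < ‖x‖ → ψ x = ψ z₀ := fun x hx => by
        by_contra h4
        exact hall ⟨x, hx, by rw [mul_one, mul_one]; exact sub_ne_zero.2 h4⟩
      have n1 : ‖(((m + b) / 2 : ℝ) : ℂ)‖ = (m + b) / 2 := by
        rw [Complex.norm_real, Real.norm_of_nonneg (by linarith)]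
      have n2 : ‖(b : ℂ)‖ = b := by rw [Complex.norm_real, Real.norm_of_nonneg (by linarith)]
      have hy : (((m + b) / 2 : ℝ) : ℂ) ∈ An m b := ⟨by rw [n1]; linarith, by rw [n1]; linarith⟩
      have h4 := h5 _ hy
      have hb' : m < ‖(b : ℂ)‖ := by rwa [n2]
      rw [h3 _ hy.1, ← h3 _ hb'] at h4
      have h6 := (h8 _ (Or.inr ⟨_, hsub b hy, rfl⟩) _ hb' h4).1
      rw [n2] at h6
      exact lt_irrefl _ h6
    have hV : An m (‖z‖ + ‖z₀‖ + 1) \ {z₀} ⊆ {z : ℂ | m < ‖z‖} := fun _ hy => hy.1.1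
    refine hur_Lim1 hO (out_con hm0.le) ((isOpen_An _ _).sdiff isClosed_singleton) hV
      ((hψd.mul_const 1).sub (differentiableOn_const (ψ z₀ * 1))) hx hx0 ?_
      (lin_Lim1 (f := fun _ => 1) 1 (hψ.mono hV) (hψd.continuousOn.mono hV) (hψ.tendsto_at hz₀)
        continuousOn_const) z ⟨⟨hz, by linarith [norm_nonneg z₀]⟩, hc⟩ ?_
    · filter_upwards [(hR.eventually_ge_atTop (‖z‖ + ‖z₀‖ + 1)).filter_mono hφ] with n hn
      have hs' : An m (‖z‖ + ‖z₀‖ + 1) \ {z₀} ⊆ An m (b + n) := fun _ hy =>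
        ⟨hy.1.1, hy.1.2.trans_le hn⟩
      refine ⟨(((hinv n).mono hs').mul_const 1).sub (differentiableOn_const _), fun y hy h3 => ?_⟩
      rw [mul_one, mul_one, sub_eq_zero, inv_inj] at h3
      exact hy.2 ((hE n).inj (hsub _ (hs' hy))
        (hsub _ ⟨hz₀, by linarith [norm_nonneg z]⟩) h3)
    · simp only [mul_one]
      exact sub_eq_zero.2 h0
  · by_contra hc
    rcases eq_or_ne w' p with rfl | hp'
    · rw [sub_self, mul_zero] at h0
      exact hc (sub_eq_zero.1 ((mul_eq_zero.1 h0.symm).resolve_left (hQ0 _ hw')))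
    have hp2 : w' - p ≠ 0 := sub_ne_zero.2 hp'
    refine hur_Lim1 hU h.con (hU.sdiff (isClosed_singleton (x := w'))) sdiff_subset
      ((hQd.mul_const (w' - p)).sub ((hfp _).const_mul (Q w'))) hpU ?_
      (Eventually.of_forall fun n => ?_)
      (lin_Lim1 (w' - p) (hQ.mono sdiff_subset) (hQd.continuousOn.mono sdiff_subset)
        (hQ.tendsto_at hw') (hfp _).continuousOn) w ⟨hw, hc⟩ (sub_eq_zero.2 h0)
    · simpa using ⟨hQ0 p hpU, hp2⟩
    · refine ⟨(((hq n).mono sdiff_subset).mul_const _).sub ((hfp _).const_mul _), fun x hx h3 => ?_⟩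
      obtain ⟨a1, a2, -⟩ := hqw n x hx.1
      obtain ⟨b1, b2, -⟩ := hqw n w' hw'
      rw [← a2, ← b2] at h3
      have h4 : q n x * q n w' * (G n w' - G n x) = 0 := by linear_combination h3
      exact hx.2 (hGi n hx.1 hw'
        (sub_eq_zero.1 ((mul_eq_zero.1 h4).resolve_left (mul_ne_zero a1 b1))).symm)

end Vale.Agent.P116.W
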