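import Vale.Agent.P116.W.Conn

/-! P116 W/Log: logarithms and square roots on the whole set. -/

open Metric Set Filter Function Topology Complex
open scoped ComplexConjugate Real

noncomputable section

namespace Vale.Agent.P116.W

/-- Two continuous logarithms that agree at a point of a preconnected set agree. -/
theorem log_eq {X : Set ℂ} (hX : IsPreconnected X) {L M : ℂ → ℂ} (hL : ContinuousOn L X)
    (hM : ContinuousOn M X) (h : ∀ w ∈ X, exp (L w) = exp (M w)) {p : ℂ} (hp : p ∈ X)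
    (e : L p = M p) : EqOn L M X := by
  exact Complex.isCoveringMap_exp.eqOn_of_comp_eqOn hX hL hM
    (fun w hw => Subtype.ext (h w hw)) hp e

/-- Fix `p ∈ K`. For `a < t < b` take `L t` from `log_of_con`, normalised at `p`. The open sets
`K ∪ e '' An a t` are preconnected (`End.mono`), increasing, with union the whole set (for `w ∈ K`
any `t`), and the `L t` agree on them (`log_eq`). -/
theorem End.log {K : Set ℂ} {e : ℂ → ℂ} {a b : ℝ} (h : End K e a b) {y : ℂ}
    (hy : y ∉ K ∪ e '' An a b) :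
    ∃ L : ℂ → ℂ, ContinuousOn L (K ∪ e '' An a b) ∧ ∀ w ∈ K ∪ e '' An a b, exp (L w) = w - y := by
  obtain ⟨p, hp⟩ := h.ne
  have s1 : ∀ {s t : ℝ}, s ≤ t → K ∪ e '' An a s ⊆ K ∪ e '' An a t := fun hst =>
    union_subset_union_right K (image_mono fun z hz => ⟨hz.1, hz.2.trans_le hst⟩)
  have h1 : ∀ t ∈ Ioo a b, ∃ L : ℂ → ℂ, ContinuousOn L (K ∪ e '' An a t) ∧
      (∀ w ∈ K ∪ e '' An a t, exp (L w) = w - y) ∧ L p = Complex.log (p - y) := fun t ht => by
    have s2 : K ∪ e '' An a t ⊆ K ∪ e '' Ac a t :=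
      union_subset_union_right K (image_mono fun z hz => ⟨hz.1, hz.2.le⟩)
    obtain ⟨L, l1, l2⟩ := log_of_con (h.cpt t ht.1 ht.2) (h.compl_con ht.1 ht.2) (y := y)
      fun h2 => hy (union_subset_union_right K (image_mono (s := Ac a t) (t := An a b)
        fun z hz => ⟨hz.1, hz.2.trans_lt ht.2⟩) h2)
    refine ⟨fun w => L w - L p + Complex.log (p - y),
      ((l1.mono s2).sub continuousOn_const).add continuousOn_const, fun w hw => ?_, by simp⟩
    have h3 : p - y ≠ 0 := l2 p (Or.inl hp) ▸ exp_ne_zero _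
    rw [exp_add, exp_sub, exp_log h3, l2 w (s2 hw), l2 p (Or.inl hp), div_mul_cancel₀ _ h3]
  choose! L l1 l2 l3 using h1
  have h2 : ∀ w ∈ K ∪ e '' An a b, ∃ t ∈ Ioo a b, w ∈ K ∪ e '' An a t := by
    rintro w (hw | ⟨z, hz, rfl⟩)
    · obtain ⟨t, ht⟩ := exists_between h.lt
      exact ⟨t, ht, Or.inl hw⟩
    · obtain ⟨t, ht⟩ := exists_between hz.2
      exact ⟨t, ⟨hz.1.trans ht.1, ht.2⟩, Or.inr ⟨z, ⟨hz.1, ht.1⟩, rfl⟩⟩
  choose! τ t1 t2 using h2
  have h3 : ∀ s ∈ Ioo a b, ∀ t ∈ Ioo a b, s ≤ t → EqOn (L s) (L t) (K ∪ e '' An a s) :=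
    fun s hs t ht hst => log_eq (h.mono hs.1 hs.2.le).con (l1 s hs) ((l1 t ht).mono (s1 hst))
      (fun w hw => by rw [l2 s hs w hw, l2 t ht w (s1 hst hw)]) (Or.inl hp)
      (by rw [l3 s hs, l3 t ht])
  refine ⟨fun w => L (τ w) w, fun w hw => ?_, fun w hw => l2 _ (t1 w hw) w (t2 w hw)⟩
  have h4 := (h.op _ (t1 w hw).1 (t1 w hw).2.le).mem_nhds (t2 w hw)
  refine (((l1 _ (t1 w hw)).continuousAt h4).congr ?_).continuousWithinAt
  filter_upwards [h4] with v hv
  have hv' := s1 (t1 w hw).2.le hv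
  rcases le_total (τ w) (τ v) with h5 | h5
  · exact h3 _ (t1 w hw) _ (t1 v hv') h5 hv
  · exact (h3 _ (t1 v hv') _ (t1 w hw) h5 (t2 v hv')).symm

/-- Apply `End.log` to `h.map` with `y = 0`; `s = exp (L ∘ g / 2)` on the set, and any square root
(`IsAlgClosed.exists_pow_nat_eq`) off it. -/
theorem End.hasSqrt {K : Set ℂ} {e : ℂ → ℂ} {a b : ℝ} (h : End K e a b) :
    HasSqrt (K ∪ e '' An a b) := by
  classical
  intro g hd hi h0
  have h1 : g '' K ∪ (g ∘ e) '' An a b = g '' (K ∪ e '' An a b) := by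
    rw [image_union, image_comp]
  obtain ⟨L, l1, l2⟩ := (h.map hd hi).log (y := 0) (by rwa [h1])
  rw [h1] at l1 l2
  choose r hr using fun z => IsAlgClosed.exists_pow_nat_eq (g z) two_pos
  refine ⟨fun z => if z ∈ K ∪ e '' An a b then exp (L (g z) / 2) else r z,
    (((l1.comp hd.continuousOn (mapsTo_image _ _)).div_const 2).cexp).congr
      fun z hz => if_pos hz, fun z => ?_⟩
  by_cases hz : z ∈ K ∪ e '' An a b
  · simp only [if_pos hz]
    rw [sq, ← exp_add, add_halves, l2 _ (mem_image_of_mem g hz), sub_zero]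
  · simp only [if_neg hz, hr]

end Vale.Agent.P116.W
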