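import Vale.Agent.P116.W.Iter

/-! P116 W/Norm: normalised extensions and uniform bounds. -/

open Metric Set Filter Function Topology Complex
open scoped ComplexConjugate Real

noncomputable section

namespace Vale.Agent.P116.W

theorem ball_Norm {G : ℂ → ℂ} {U : Set ℂ} (hU : IsOpen U) (hd : DifferentiableOn ℂ G U)
    (hi : InjOn G U) {p : ℂ} {δ : ℝ} (hδ : 0 < δ) (hs : closedBall p δ ⊆ U) (h0 : G p = 0)
    (h1 : ∀ w ∈ sphere p δ, 1 ≤ ‖G w‖) : ball 0 1 ⊆ G '' ball p δ := by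
  refine (convex_ball (0 : ℂ) 1).isPreconnected.subset_of_closure_inter_subset
    (open_image hU hd hi isOpen_ball (ball_subset_closedBall.trans hs))
    ⟨0, mem_ball_self one_pos, p, mem_ball_self hδ, h0⟩ ?_
  rintro y ⟨hy, hy'⟩
  obtain ⟨w, hw, rfl⟩ := closure_minimal (image_mono ball_subset_closedBall)
    ((isCompact_closedBall p δ).image_of_continuousOn (hd.continuousOn.mono hs)).isClosed hy
  refine ⟨w, mem_ball.2 (lt_of_le_of_ne (mem_closedBall.1 hw) fun e => ?_), rfl⟩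
  exact (mem_ball_zero_iff.1 hy').not_ge (h1 w e)

theorem q_Norm {G : ℂ → ℂ} {U : Set ℂ} (hU : IsOpen U) (hd : DifferentiableOn ℂ G U)
    (hi : InjOn G U) {p : ℂ} {δ : ℝ} (hδ : 0 < δ) (hs : closedBall p δ ⊆ U) (h0 : G p = 0)
    (h1 : ∀ w ∈ sphere p δ, 1 ≤ ‖G w‖) : ∃ q : ℂ → ℂ, DifferentiableOn ℂ q U ∧
      ∀ w ∈ U, q w ≠ 0 ∧ q w * G w = w - p ∧ ‖q w‖ ≤ max δ ‖w - p‖ := by
  have hp : p ∈ U := hs (mem_closedBall_self hδ.le)
  have e1 : ∀ w, (w - p) * dslope G p w = G w := fun w => by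
    have := sub_smul_dslope G p w
    rwa [h0, sub_zero, smul_eq_mul] at this
  have e2 : ∀ w ∈ U, dslope G p w ≠ 0 := fun w hw e => by
    have h2 := e1 w
    rw [e, mul_zero, ← h0] at h2
    rw [← hi hp hw h2, dslope_same] at e
    exact P142.deriv_ne hU hd hi hp e
  have e3 : ∀ w ∈ U, (dslope G p w)⁻¹ * G w = w - p := fun w hw => by
    rw [← e1 w, mul_comm, mul_inv_cancel_right₀ (e2 w hw)]
  have e4 : ∀ w ∈ U, w ∉ ball p δ → ‖(dslope G p w)⁻¹‖ ≤ ‖w - p‖ := fun w hw hw' => by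
    rw [← e3 w hw, norm_mul]
    refine le_mul_of_one_le_right (norm_nonneg _) (not_lt.1 fun h2 => ?_)
    obtain ⟨w', a1, a2⟩ := ball_Norm hU hd hi hδ hs h0 h1 (mem_ball_zero_iff.2 h2)
    exact hw' (hi (hs (ball_subset_closedBall a1)) hw a2 ▸ a1)
  have e5 : DifferentiableOn ℂ (fun w => (dslope G p w)⁻¹) U :=
    ((differentiableOn_dslope (hU.mem_nhds hp)).2 hd).inv e2
  refine ⟨_, e5, fun w hw => ⟨inv_ne_zero (e2 w hw), e3 w hw, ?_⟩⟩
  by_cases hw' : w ∈ ball p δ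
  · refine le_max_of_le_left (norm_le_of_forall_mem_frontier_norm_le isBounded_ball
      (e5.diffContOnCl_ball hs) (fun z hz => ?_) (subset_closure hw'))
    rw [frontier_ball _ hδ.ne'] at hz
    refine (e4 z (hs (sphere_subset_closedBall hz)) fun h2 => ?_).trans_eq (mem_sphere_iff_norm.1 hz)
    exact (mem_ball.1 h2).ne hz
  · exact le_max_of_le_right (e4 w hw hw')

/-- From `End.iter`: subtract `G p` and divide by `ρ = min ‖G - G p‖` on `sphere p δ`, where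
`closedBall p δ ⊆ K ∪ e '' An a m` (open). Then `ball 0 1 ⊆ G '' ball p δ` (the image is open, and
relatively closed in the connected set `ball 0 1`), so `‖G w‖ ≥ 1` off `ball p δ` and
`‖e' z‖ ≥ 1` for `m ≤ ‖z‖ < R`. `q = (dslope G p)⁻¹` is holomorphic, `q w * G w = w - p`,
`‖q‖ ≤ δ` on the sphere hence on the ball (maximum principle), `‖q w‖ ≤ ‖w - p‖` off it. -/
theorem End.norm {K : Set ℂ} {e : ℂ → ℂ} {a b m δ : ℝ} (h : End K e a b)
    (hb : Bornology.IsBounded (K ∪ e '' An a b)) (h1 : a < m) (h2 : m < b) {p : ℂ} (hp : p ∈ K)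
    (hδ : 0 < δ) (hs : closedBall p δ ⊆ K ∪ e '' An a m) (R : ℝ) (hR : b ≤ R) :
    ∃ G e' q : ℂ → ℂ, DifferentiableOn ℂ G (K ∪ e '' An a b) ∧ InjOn G (K ∪ e '' An a b) ∧
      EqOn e' (G ∘ e) (An a b) ∧ End (G '' K) e' a R ∧ G p = 0 ∧
      DifferentiableOn ℂ q (K ∪ e '' An a b) ∧
      (∀ w ∈ K ∪ e '' An a b, q w ≠ 0 ∧ q w * G w = w - p ∧ ‖q w‖ ≤ max δ ‖w - p‖) ∧
      (∃ w ∈ sphere p δ, ‖q w‖ = δ) ∧ ∀ z, m ≤ ‖z‖ → ‖z‖ < R → 1 ≤ ‖e' z‖ := by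
  obtain ⟨G₀, e₀, g1, g2, g3, g4⟩ := h.iter hb R hR
  have hU := h.op b h.lt le_rfl
  have hA : An a m ⊆ An a b := fun z hz => ⟨hz.1, hz.2.trans h2⟩
  have hA' : An a b ⊆ An a R := fun z hz => ⟨hz.1, hz.2.trans_le hR⟩
  have hs' := hs.trans (union_subset_union_right K (image_mono hA))
  obtain ⟨w₀, hw₀, hm⟩ := (isCompact_sphere p δ).exists_isMinOn
    (NormedSpace.sphere_nonempty.2 hδ.le) (f := fun w => ‖G₀ w - G₀ p‖)
    ((g1.continuousOn.mono (sphere_subset_closedBall.trans hs')).sub continuousOn_const).norm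
  have hρ : 0 < ‖G₀ w₀ - G₀ p‖ := norm_sub_pos_iff.2 fun e => by
    rw [g2 (hs' (sphere_subset_closedBall hw₀)) (Or.inl hp) e, mem_sphere, dist_self] at hw₀
    exact hδ.ne hw₀
  have hn : ∀ y : ℂ, ‖(y - G₀ p) / (‖G₀ w₀ - G₀ p‖ : ℝ)‖ = ‖y - G₀ p‖ / ‖G₀ w₀ - G₀ p‖ :=
    fun y => by rw [norm_div, Complex.norm_real, norm_norm]
  obtain ⟨T, t1, t2, t3, t4, t5⟩ : ∃ T : ℂ → ℂ, Differentiable ℂ T ∧ Injective T ∧
      T (G₀ p) = 0 ∧ ‖T (G₀ w₀)‖ = 1 ∧ ∀ w ∈ sphere p δ, 1 ≤ ‖T (G₀ w)‖ :=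
    ⟨fun y => (y - G₀ p) / (‖G₀ w₀ - G₀ p‖ : ℝ), (differentiable_id.sub_const _).div_const _,
      fun y y' e => sub_left_injective ((div_left_inj' (ofReal_ne_zero.2 hρ.ne')).1 e),
      by simp, (hn _).trans (div_self hρ.ne'), fun w hw => by
        rw [hn, one_le_div hρ]
        exact hm hw⟩
  have a1 : DifferentiableOn ℂ (T ∘ G₀) (K ∪ e '' An a b) := t1.comp_differentiableOn g1
  have a2 : InjOn (T ∘ G₀) (K ∪ e '' An a b) := t2.comp_injOn g2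
  have a3 : EqOn (T ∘ e₀) ((T ∘ G₀) ∘ e) (An a b) := fun z hz => congrArg T (g3 hz)
  have a4 : End ((T ∘ G₀) '' K) (T ∘ e₀) a R := by
    rw [image_comp]
    exact g4.map t1.differentiableOn t2.injOn
  obtain ⟨q, q1, q2⟩ := q_Norm hU a1 a2 hδ hs' t3 t5
  refine ⟨T ∘ G₀, T ∘ e₀, q, a1, a2, a3, a4, t3, q1, q2, ⟨w₀, hw₀, ?_⟩, fun z z1 z2 => ?_⟩
  · have := congrArg Norm.norm (q2 w₀ (hs' (sphere_subset_closedBall hw₀))).2.1
    rwa [norm_mul, comp_apply, t4, mul_one, mem_sphere_iff_norm.1 hw₀] at this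
  · refine not_lt.1 fun h3 => ?_
    have hz : z ∈ An a R := ⟨h1.trans_le z1, z2⟩
    obtain ⟨w, b1, b2⟩ := ball_Norm hU a1 a2 hδ hs' t3 t5 (mem_ball_zero_iff.2 h3)
    obtain b3 | ⟨z', b3, rfl⟩ := hs (ball_subset_closedBall b1)
    · exact disjoint_left.1 a4.dis ⟨w, b3, b2⟩ ⟨z, hz, rfl⟩
    · have b4 := a4.inj (hA' (hA b3)) hz ((a3 (hA b3)).trans b2)
      exact z1.not_gt (b4 ▸ b3.2)

end Vale.Agent.P116.W
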