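import Vale.Agent.P116.W.Bas

/-! P116 W/RMT: copy `Pre.sqrt`, `improve`, `exists_max`, `riemann_mapping` from `P071/RMT.lean`
with `HasSqrt U` in place of simple connectivity (the first map is `z ↦ z / R` as `U` is bounded). -/

open Metric Set Filter Function Topology Complex
open scoped ComplexConjugate Real

noncomputable section

namespace Vale.Agent.P116.W

section

open Vale.Agent.P071.RMT

theorem first_RMT {U : Set ℂ} (hb : Bornology.IsBounded U) : ∃ f : ℂ → ℂ, Pre U f := by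
  obtain ⟨R, hR, hU⟩ := hb.subset_ball_lt 0 0
  have hR' : (R : ℂ) ≠ 0 := by exact_mod_cast hR.ne'
  refine ⟨fun z => z / R, fun z hz => ?_, fun z _ w _ e => ?_, fun z _ => ?_⟩
  · rw [mem_ball_zero_iff, norm_div, Complex.norm_real, Real.norm_of_nonneg hR.le, div_lt_one hR]
    exact mem_ball_zero_iff.1 (hU hz)
  · exact (div_left_inj' hR').1 e
  · rw [((hasDerivAt_id' z).div_const (R : ℂ)).deriv]
    exact div_ne_zero one_ne_zero hR'

theorem sqrt_RMT {U : Set ℂ} (hUo : IsOpen U) (hUc : HasSqrt U) {h : ℂ → ℂ}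
    (hh : Pre U h) (h0 : 0 ∉ h '' U) :
    ∃ s : ℂ → ℂ, Pre U s ∧ (∀ z, s z ^ 2 = h z) ∧ ∀ z ∈ U, deriv s z = deriv h z / (2 * s z) := by
  obtain ⟨s, hs, hs2⟩ := hUc h hh.diffOn hh.2.1 h0
  have hs0 : ∀ z ∈ U, s z ≠ 0 := by
    intro z hz e
    refine h0 ⟨z, hz, ?_⟩
    rw [← hs2 z, e]; simp
  have hd : ∀ z ∈ U, HasDerivAt s (deriv h z / (2 * s z)) z := by
    intro z hz
    have hc : ContinuousAt s z := hs.continuousAt (hUo.mem_nhds hz)
    have h1 : Tendsto (fun w => s w + s z) (𝓝[≠] z) (𝓝 (2 * s z)) := by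
      rw [two_mul]
      exact (hc.tendsto.add_const (s z)).mono_left nhdsWithin_le_nhds
    have h2 : (2 * s z) ≠ 0 := mul_ne_zero two_ne_zero (hs0 z hz)
    have h3 := (hasDerivAt_iff_tendsto_slope.1 (hh.diffAt hz).hasDerivAt).div h1 h2
    rw [hasDerivAt_iff_tendsto_slope]
    refine h3.congr' ?_
    filter_upwards [h1.eventually_ne h2] with w hw
    simp only [Pi.div_apply, slope_def_field]
    rw [← hs2 w, ← hs2 z]
    field_simp
    ring
  refine ⟨s, ⟨fun z hz => ?_, fun z hz w hw e => ?_, fun z hz => ?_⟩, hs2,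
    fun z hz => (hd z hz).deriv⟩
  · rw [mem_ball_zero_iff]
    have := hh.norm_lt hz
    rw [← hs2 z, norm_pow] at this
    nlinarith [norm_nonneg (s z)]
  · refine hh.2.1 hz hw ?_
    rw [← hs2 z, ← hs2 w, e]
  · rw [(hd z hz).deriv]
    exact div_ne_zero (hh.2.2 z hz) (mul_ne_zero two_ne_zero (hs0 z hz))

theorem improve_RMT {U : Set ℂ} (hUo : IsOpen U) (hUc : HasSqrt U) {p : ℂ} (hp : p ∈ U)
    {g : ℂ → ℂ} (hg : Pre U g) (hg0 : g p = 0) {w : ℂ} (hw : ‖w‖ < 1) (hw' : w ∉ g '' U) :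
    ∃ g' : ℂ → ℂ, Pre U g' ∧ g' p = 0 ∧ ‖deriv g p‖ < ‖deriv g' p‖ := by
  have h0 : 0 ∉ (mob w ∘ g) '' U := by
    rintro ⟨z, hz, e⟩
    refine hw' ⟨z, hz, ?_⟩
    simp only [comp_apply, mob, div_eq_zero_iff, mob_den_ne hw (hg.norm_lt hz), or_false] at e
    exact sub_eq_zero.1 e
  obtain ⟨s, hs, hs2, hsd⟩ := sqrt_RMT hUo hUc (hg.mob hw) h0
  have ht1 : ‖s p‖ < 1 := hs.norm_lt hp
  have hsw : ‖s p‖ ^ 2 = ‖w‖ := by
    rw [← norm_pow, hs2 p]
    simp [mob, hg0]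
  have ht0 : 0 < ‖s p‖ := by
    refine norm_pos_iff.2 fun e => h0 ⟨p, hp, ?_⟩
    rw [← hs2 p, e]; simp
  refine ⟨mob (s p) ∘ s, hs.mob ht1, by simp [mob], ?_⟩
  rw [hs.deriv_mob ht1 hp, hsd p hp, hg.deriv_mob hw hp, hg0]
  simp only [norm_mul, norm_div, norm_pow, norm_one_sub ht1, norm_one_sub hw, mul_zero, sub_zero,
    one_pow, div_one, Complex.norm_ofNat]
  rw [← hsw]
  have hD : 0 < ‖deriv g p‖ := norm_pos_iff.2 (hg.2.2 p hp)
  set t := ‖s p‖
  set D := ‖deriv g p‖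
  have h1 : 0 < 1 - t ^ 2 := by nlinarith
  have e : (1 - t ^ 2) / (1 - t ^ 2) ^ 2 * ((1 - (t ^ 2) ^ 2) * D / (2 * t))
      = (1 + t ^ 2) / (2 * t) * D := by
    field_simp
    ring
  rw [e]
  refine lt_mul_of_one_lt_left hD ?_
  rw [one_lt_div (by positivity)]
  nlinarith

theorem max_RMT {U : Set ℂ} (hUo : IsOpen U) (hpc : IsPreconnected U)
    (hb : Bornology.IsBounded U)
    {p : ℂ} (hp : p ∈ U) : ∃ G : ℂ → ℂ, Pre U G ∧ G p = 0 ∧
      ∀ g : ℂ → ℂ, Pre U g → g p = 0 → ‖deriv g p‖ ≤ ‖deriv G p‖ := by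
  obtain ⟨f₀, hf₀'⟩ := first_RMT hb
  let S : Set ℝ := {x | ∃ g : ℂ → ℂ, Pre U g ∧ g p = 0 ∧ ‖deriv g p‖ = x}
  have hf₁ := hf₀'.mob (hf₀'.norm_lt hp)
  have hmem : ‖deriv (mob (f₀ p) ∘ f₀) p‖ ∈ S := ⟨_, hf₁, by simp [mob], rfl⟩
  obtain ⟨R, hR, hRU⟩ := Metric.isOpen_iff.1 hUo p hp
  have hbd : BddAbove S := by
    refine ⟨1 / R, ?_⟩
    rintro _ ⟨g, hg, hg0, rfl⟩
    refine Complex.norm_deriv_le_div_of_mapsTo_ball (hg.diffOn.mono hRU) (fun z hz => ?_) hR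
    rw [hg0]
    exact ball_subset_closedBall (hg.1 (hRU hz))
  have hM : 0 < sSup S := (norm_pos_iff.2 (hf₁.2.2 p hp)).trans_le (le_csSup hbd hmem)
  obtain ⟨u, -, hu, huS⟩ := exists_seq_tendsto_sSup ⟨_, hmem⟩ hbd
  choose g hg hg0 hgu using huS
  let φ : Ultrafilter ℕ := Ultrafilter.of atTop
  have hφ : (φ : Filter ℕ) ≤ atTop := Ultrafilter.of_le _
  obtain ⟨G, hG⟩ := montel hUo g (fun n => (hg n).diffOn) (fun n => (hg n).1) φ
  have hGd : DifferentiableOn ℂ G U :=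
    hG.differentiableOn (Eventually.of_forall fun n => (hg n).diffOn) hUo
  have hG' := hG.deriv (Eventually.of_forall fun n => (hg n).diffOn) hUo
  have hGp : ‖deriv G p‖ = sSup S := by
    refine tendsto_nhds_unique (hG'.tendsto_at hp).norm ((hu.mono_left hφ).congr fun n => ?_)
    exact (hgu n).symm
  have hGa : AnalyticOnNhd ℂ G U := hGd.analyticOnNhd hUo
  have hne : ∀ z ∈ U, deriv G z ≠ 0 := by
    intro z hz e
    have h1 := hurwitz hUo (h := deriv ∘ g) (fun n => (hg n).diffOn.deriv hUo)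
      (fun n => (hg n).2.2) hG' hz e
    have h2 := hGa.deriv.eqOn_zero_of_preconnected_of_eventuallyEq_zero hpc hz h1 hp
    rw [h2] at hGp
    simp at hGp
    linarith
  refine ⟨G, ⟨fun z hz => ?_, fun a ha b hb e => ?_, hne⟩, ?_, fun g' h1 h2 => ?_⟩
  · have h1 : G '' U ∈ 𝓝 (G z) := by
      rw [← (hGa z hz).hasStrictDerivAt.map_nhds_eq (hne z hz)]
      exact image_mem_map (hUo.mem_nhds hz)
    rw [← interior_closedBall (0 : ℂ) one_ne_zero, mem_interior_iff_mem_nhds]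
    refine mem_of_superset h1 ?_
    rintro _ ⟨y, hy, rfl⟩
    exact isClosed_closedBall.mem_of_tendsto (hG.tendsto_at hy)
      (Eventually.of_forall fun n => ball_subset_closedBall ((hg n).1 hy))
  · by_contra hab
    have hV : IsOpen (U \ {a}) := hUo.sdiff isClosed_singleton
    have ht : TendstoLocallyUniformlyOn (fun n z => g n z - g n a) (fun z => G z - G a) φ
        (U \ {a}) :=
      (hG.mono sdiff_subset).sub
        ((hG.tendsto_at ha).tendstoUniformlyOn_const _).tendstoLocallyUniformlyOn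
    have h1 := hurwitz hV (fun n => ((hg n).diffOn.mono sdiff_subset).sub_const _)
      (fun n z hz e => hz.2 ((hg n).2.1 hz.1 ha (sub_eq_zero.1 e))) ht
      (z₀ := b) ⟨hb, fun h => hab (mem_singleton_iff.1 h).symm⟩ (by rw [e, sub_self])
    have h2 : G =ᶠ[𝓝 b] fun _ => G a := h1.mono fun z hz => sub_eq_zero.1 hz
    refine hne b hb ?_
    rw [h2.deriv_eq]
    simp
  · refine tendsto_nhds_unique (hG.tendsto_at hp) (tendsto_const_nhds.congr fun n => ?_)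
    exact (hg0 n).symm
  · rw [hGp]
    exact le_csSup hbd ⟨g', h1, h2, rfl⟩

end

theorem rmt {U : Set ℂ} (hUo : IsOpen U) (hc : IsPreconnected U) (hs : HasSqrt U)
    (hb : Bornology.IsBounded U) {p : ℂ} (hp : p ∈ U) :
    ∃ G : ℂ → ℂ, DifferentiableOn ℂ G U ∧ InjOn G U ∧ G p = 0 ∧ G '' U = ball 0 1 := by
  obtain ⟨G, hG, hG0, hmax⟩ := max_RMT hUo hc hb hp
  refine ⟨G, hG.diffOn, hG.2.1, hG0, Subset.antisymm hG.1.image_subset fun w hw => ?_⟩
  by_contra hcon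
  obtain ⟨g', h1, h2, h3⟩ := improve_RMT hUo hs hp hG hG0 (mem_ball_zero_iff.1 hw) hcon
  exact absurd (hmax g' h1 h2) (not_le.2 h3)

end Vale.Agent.P116.W
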