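import Vale.Agent.P116.W.Four
import Vale.Agent.P116.W.Four2

/-! P116 W/Ref1: the logarithmic derivative extends across the circle. -/

open Metric Set Filter Function Topology Complex
open scoped ComplexConjugate Real

noncomputable section

namespace Vale.Agent.P116.W

theorem norm_ref1 {s : ℝ} (hs : 0 < s) (θ : ℝ) : ‖(s : ℂ) * exp (θ * I)‖ = s := by
  rw [norm_mul, norm_exp_ofReal_mul_I, mul_one, norm_real, Real.norm_eq_abs, abs_of_pos hs]

theorem cont_ref1 {X : Type} [TopologicalSpace X] {F : ℂ → ℂ} {U : Set ℂ} (hF : ContinuousOn F U)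
    {r θ : X → ℝ} (hr : Continuous r) (hθ : Continuous θ)
    (h : ∀ x, (r x : ℂ) * exp (θ x * I) ∈ U) :
    Continuous fun x => ((F (r x * exp (θ x * I))).im : ℂ) :=
  continuous_ofReal.comp (continuous_im.comp (hF.comp_continuous (by fun_prop) h))

theorem hol_ref1 {e : ℂ → ℂ} {a b : ℝ} (hd : DifferentiableOn ℂ e (An a b))
    (h0 : ∀ z ∈ An a b, e z ≠ 0) : DifferentiableOn ℂ (fun z => z * deriv e z / e z) (An a b) :=
  (differentiableOn_id.mul (hd.deriv (isOpen_An a b))).div hd h0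

theorem der_ref1 {e : ℂ → ℂ} {a b s : ℝ} (hd : DifferentiableOn ℂ e (An a b))
    (h0 : ∀ z ∈ An a b, e z ≠ 0) (hs : ∀ θ : ℝ, (s : ℂ) * exp (θ * I) ∈ An a b) (θ : ℝ) :
    HasDerivAt (fun t : ℝ => ((Real.log ‖e (s * exp (t * I))‖ : ℝ) : ℂ))
      (-((s * exp (θ * I) * deriv e (s * exp (θ * I)) / e (s * exp (θ * I))).im : ℂ)) θ := by
  have h1 : HasDerivAt (fun ζ : ℂ => (s : ℂ) * exp (ζ * I)) (s * (exp (θ * I) * I)) θ := by
    have h2 := (((hasDerivAt_id (θ : ℂ)).mul_const I).cexp).const_mul (s : ℂ)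
    rwa [one_mul] at h2
  have h2 := (hd.differentiableAt ((isOpen_An a b).mem_nhds (hs θ))).hasDerivAt.comp (θ : ℂ) h1
  have hw := h0 _ (hs θ)
  have h3 := ((h2.div_const (e (s * exp (θ * I)))).clog (by
    rw [Function.comp_apply, div_self hw]
    exact one_mem_slitPlane)).real_of_complex.add_const (Real.log ‖e (s * exp (θ * I))‖)
  have h4 : (fun t : ℝ => Real.log ‖e (s * exp (t * I))‖) = fun t : ℝ =>
      (log ((e ∘ fun ζ : ℂ => (s : ℂ) * exp (ζ * I)) t / e (s * exp (θ * I)))).re +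
        Real.log ‖e (s * exp (θ * I))‖ := by
    funext t
    rw [log_re, norm_div, Function.comp_apply, Real.log_div (norm_ne_zero_iff.2 (h0 _ (hs t)))
      (norm_ne_zero_iff.2 hw), sub_add_cancel]
  rw [← h4] at h3
  have h5 : deriv e (s * exp (θ * I)) * (s * (exp (θ * I) * I)) / e (s * exp (θ * I)) /
      ((e ∘ fun ζ : ℂ => (s : ℂ) * exp (ζ * I)) θ / e (s * exp (θ * I))) =
      s * exp (θ * I) * deriv e (s * exp (θ * I)) / e (s * exp (θ * I)) * I := by
    rw [Function.comp_apply, div_self hw]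
    ring
  rw [h5, mul_I_re] at h3
  have h6 := h3.ofReal_comp
  rwa [ofReal_neg] at h6

/-- `u θ = log ‖e (s e^{iθ})‖` has derivative `-(z e' / e).im`; integrate by parts; `u → 0`
uniformly as `s → b`. For `n = 0` the integral is zero. -/
theorem im_tendsto {e : ℂ → ℂ} {a b : ℝ} (ha : 0 < a) (hab : a < b)
    (hd : DifferentiableOn ℂ e (An a b)) (h0 : ∀ z ∈ An a b, e z ≠ 0)
    (h1 : ∀ ε : ℝ, 0 < ε → ∃ t, t < b ∧ ∀ z ∈ An a b, t < ‖z‖ → |‖e z‖ - 1| < ε) (n : ℕ) :
    Tendsto (fun s : ℝ => ∫ θ in (0 : ℝ)..2 * π,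
      ((s * exp (θ * I) * deriv e (s * exp (θ * I)) / e (s * exp (θ * I))).im : ℂ) *
        exp (-(n * θ * I))) (𝓝[<] b) (𝓝 0) := by
  refine Metric.tendsto_nhds.2 fun ε hε => ?_
  have hC : 0 < n * (2 * π) + 1 := by positivity
  obtain ⟨δ, hδ, h2⟩ := Metric.continuousAt_iff.1 (Real.continuousAt_log one_ne_zero)
    (ε / (n * (2 * π) + 1)) (div_pos hε hC)
  obtain ⟨t, ht, h3⟩ := h1 δ hδ
  filter_upwards [Ioo_mem_nhdsLT (max_lt hab ht)] with s hs
  have hsa : a < s := (le_max_left _ _).trans_lt hs.1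
  have hs0 : 0 < s := ha.trans hsa
  have hA : ∀ θ : ℝ, (s : ℂ) * exp (θ * I) ∈ An a b := fun θ => by
    constructor <;> rw [norm_ref1 hs0]
    exacts [hsa, hs.2]
  have hv : ∀ θ : ℝ, HasDerivAt (fun θ : ℝ => exp (-(n * θ * I)))
      (exp (-(n * θ * I)) * -(n * I)) θ := fun θ => by
    have h4 := ((((hasDerivAt_id (θ : ℂ)).const_mul (n : ℂ)).mul_const I).neg.cexp).comp_ofReal
    rwa [mul_one] at h4
  have hc := cont_ref1 (hol_ref1 hd h0).continuousOn continuous_const continuous_id hA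
  have h4 := intervalIntegral.integral_mul_deriv_eq_deriv_mul (a := 0) (b := 2 * π)
    (fun θ _ => der_ref1 hd h0 hA θ) (fun θ _ => hv θ) (hc.neg.intervalIntegrable _ _)
    (Continuous.intervalIntegrable (by fun_prop) _ _)
  have h5 : exp (((2 * π : ℝ) : ℂ) * I) = exp (((0 : ℝ) : ℂ) * I) := by
    rw [ofReal_zero, zero_mul, exp_zero]
    push_cast
    exact exp_two_pi_mul_I
  have h6 : exp (-(n * ((2 * π : ℝ) : ℂ) * I)) = exp (-(n * ((0 : ℝ) : ℂ) * I)) := by
    rw [exp_neg, exp_neg, mul_assoc, mul_assoc, exp_nat_mul, exp_nat_mul, h5]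
  simp only [neg_mul, intervalIntegral.integral_neg] at h4
  rw [h5, h6, sub_self, zero_sub, neg_neg] at h4
  rw [← h4, dist_zero_right]
  refine (intervalIntegral.norm_integral_le_of_norm_le_const
    (C := ε / (n * (2 * π) + 1) * n) fun θ _ => ?_).trans_lt ?_
  · have h7 : ‖exp (-(n * (θ : ℂ) * I))‖ = 1 := by
      rw [exp_neg, norm_inv, mul_assoc, exp_nat_mul, norm_pow, norm_exp_ofReal_mul_I, one_pow,
        inv_one]
    rw [norm_mul, norm_mul, h7, one_mul, norm_neg, norm_mul, norm_I, mul_one, norm_natCast,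
      norm_real]
    refine mul_le_mul_of_nonneg_right ?_ (Nat.cast_nonneg n)
    have h8 := h2 (x := ‖e (s * exp (θ * I))‖) (by
      rw [Real.dist_eq]
      refine h3 _ (hA θ) ?_
      rw [norm_ref1 hs0]
      exact (le_max_right _ _).trans_lt hs.1)
    rw [Real.log_one, dist_zero_right] at h8
    exact h8.le
  · rw [sub_zero, abs_of_pos Real.two_pi_pos, mul_assoc, div_mul_eq_mul_div, div_lt_iff₀ hC]
    exact mul_lt_mul_of_pos_left (lt_add_one _) hε

theorem refl_ref1 {N : ℂ → ℂ} {a b : ℝ} (ha : 0 < a) (hb : 0 < b)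
    (hN : DifferentiableOn ℂ N {z | a < ‖z‖}) (h : Tendsto N (cocompact ℂ) (𝓝 0)) :
    ∃ M : ℂ → ℂ, DifferentiableOn ℂ M (ball 0 (b ^ 2 / a)) ∧
      ∀ z, z ≠ 0 → M z = conj (N (b ^ 2 / conj z)) := by
  classical
  have hn : ∀ z : ℂ, ‖(b : ℂ) ^ 2 / z‖ = b ^ 2 * ‖z⁻¹‖ := fun z => by
    rw [div_eq_mul_inv, norm_mul, norm_pow, norm_real, Real.norm_eq_abs, sq_abs]
  refine ⟨update (fun z => conj (N (b ^ 2 / conj z))) 0 0, ?_, fun z hz => update_of_ne hz _ _⟩
  refine (differentiableOn_compl_singleton_and_continuousAt_iff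
    (ball_mem_nhds (0 : ℂ) (by positivity))).1 ⟨?_, continuousAt_update_same.2 ?_⟩
  · refine DifferentiableOn.congr (f := fun z => conj (N (b ^ 2 / conj z))) (fun z hz => ?_)
      fun z hz => update_of_ne hz.2 _ _
    have hz0 : z ≠ 0 := hz.2
    have hz1 : conj z ≠ 0 := (map_ne_zero _).2 hz0
    have h1 : a < ‖(b : ℂ) ^ 2 / conj z‖ := by
      have h2 := mem_ball_zero_iff.1 hz.1
      rw [hn, norm_inv, norm_conj, ← div_eq_mul_inv, lt_div_iff₀ (norm_pos_iff.2 hz0)]
      rw [lt_div_iff₀ ha] at h2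
      rwa [mul_comm]
    have h2 : DifferentiableAt ℂ (fun w : ℂ => N (b ^ 2 / w)) (conj z) :=
      (hN.differentiableAt ((isOpen_lt continuous_const continuous_norm).mem_nhds h1)).comp
        (conj z) ((differentiableAt_const _).div differentiableAt_id hz1)
    exact (differentiableAt_conj_conj_iff.2 h2).differentiableWithinAt
  · have h1 : Tendsto (fun z : ℂ => (b : ℂ) ^ 2 / conj z) (𝓝[≠] 0) (cocompact ℂ) := by
      rw [← Metric.cobounded_eq_cocompact, ← tendsto_norm_atTop_iff_cobounded]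
      refine (Tendsto.const_mul_atTop (pow_pos hb 2)
        (tendsto_norm_inv_nhdsNE_zero_atTop (α := ℂ))).congr fun z => ?_
      rw [hn, norm_inv, norm_inv, norm_conj]
    have h2 := (continuous_conj.tendsto 0).comp (h.comp h1)
    rwa [map_zero] at h2

/-- Split `z e' / e = P + N` (`laurent`). `Φ z = P z - conj (N (b ^ 2 / conj z))` (value `P 0` at
`0`, removable since `N → 0`) is holomorphic on `ball 0 b`, and
`(Φ z).im = (z e'/e).im - (N z).im + (N (b ^ 2 / conj z)).im`; the last two terms cancel uniformly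
as `‖z‖ → b` (uniform continuity near the circle). By `const_of_im`, `Φ = c`; take
`H z = (c + N z + conj (N (b ^ 2 / conj z))) / z`. -/
theorem logder_ext {e : ℂ → ℂ} {a b : ℝ} (ha : 0 < a) (hab : a < b)
    (hd : DifferentiableOn ℂ e (An a b)) (h0 : ∀ z ∈ An a b, e z ≠ 0)
    (h1 : ∀ ε : ℝ, 0 < ε → ∃ t, t < b ∧ ∀ z ∈ An a b, t < ‖z‖ → |‖e z‖ - 1| < ε) :
    ∃ H : ℂ → ℂ, DifferentiableOn ℂ H (An a (b ^ 2 / a)) ∧
      ∀ z ∈ An a b, deriv e z = H z * e z := by
  have hb : 0 < b := ha.trans hab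
  have hh := hol_ref1 hd h0
  obtain ⟨P, N, hP, hN, hN0, hPN⟩ := laurent ha hab hh
  obtain ⟨M, hM, eM⟩ := refl_ref1 ha hb hN hN0
  have hba : b ≤ b ^ 2 / a := by
    rw [le_div_iff₀ ha, sq]
    exact mul_le_mul_of_nonneg_left hab.le hb.le
  have hz0 : ∀ z : ℂ, a < ‖z‖ → z ≠ 0 := fun z hz => norm_pos_iff.1 (ha.trans hz)
  obtain ⟨m, hm1, hm2⟩ := exists_between hab
  obtain ⟨c, hc⟩ := const_of_im (Φ := fun z => P z - M z) hb
    (hP.sub (hM.mono (ball_subset_ball hba))) fun n => by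
      have hv : Continuous fun θ : ℝ => exp (-(n * (θ : ℂ) * I)) := by fun_prop
      have hpos : ∀ s : ℝ, a < max m s := fun s => hm1.trans_le (le_max_left _ _)
      have hc1 : Continuous (uncurry fun s θ : ℝ =>
          ((N ((max m s : ℝ) * exp (θ * I))).im : ℂ) * exp (-(n * θ * I))) :=
        (cont_ref1 hN.continuousOn (r := fun p : ℝ × ℝ => max m p.1) (θ := fun p => p.2)
          (by fun_prop) continuous_snd fun p => by
            rw [mem_ofPred_eq, norm_ref1 (ha.trans (hpos _))]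
            exact hpos _).mul (hv.comp continuous_snd)
      obtain ⟨G, hG⟩ : ∃ G : ℝ → ℂ, G = fun s => ∫ θ in (0 : ℝ)..2 * π,
          ((N ((max m s : ℝ) * exp (θ * I))).im : ℂ) * exp (-(n * θ * I)) := ⟨_, rfl⟩
      have hGc : Continuous G :=
        hG ▸ intervalIntegral.continuous_parametric_intervalIntegral_of_continuous' hc1 _ _
      have h2 : ContinuousAt (fun s : ℝ => G (b ^ 2 / s) - G s) b :=
        (hGc.continuousAt.comp (continuousAt_const.div continuousAt_id hb.ne')).sub hGc.continuousAt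
      have h3 : Tendsto (fun s : ℝ => G (b ^ 2 / s) - G s) (𝓝[<] b) (𝓝 0) := by
        have h4 := h2.tendsto.mono_left (nhdsWithin_le_nhds (s := Iio b))
        rwa [sq, mul_div_cancel_right₀ _ hb.ne', sub_self, ← sq] at h4
      have h4 := (im_tendsto ha hab hd h0 h1 n).add h3
      rw [add_zero] at h4
      refine h4.congr' ?_
      filter_upwards [Ioo_mem_nhdsLT hm2] with s hs
      have hsa : a < s := hm1.trans hs.1
      have hs0 : 0 < s := ha.trans hsa
      have hA : ∀ θ : ℝ, (s : ℂ) * exp (θ * I) ∈ An a b := fun θ => by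
        constructor <;> rw [norm_ref1 hs0]
        exacts [hsa, hs.2]
      have hbs : m ≤ b ^ 2 / s := by
        rw [le_div_iff₀ hs0, sq]
        exact mul_le_mul hm2.le hs.2.le hs0.le hb.le
      have i1 := ((cont_ref1 hh.continuousOn continuous_const continuous_id hA).mul
        hv).intervalIntegrable (μ := MeasureTheory.volume) 0 (2 * π)
      have i2 := fun r : ℝ => (hc1.uncurry_left r).intervalIntegrable (μ := MeasureTheory.volume)
        0 (2 * π)
      rw [hG]
      refine ((intervalIntegral.integral_add i1 ((i2 (b ^ 2 / s)).sub (i2 s))).trans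
        (congrArg _ (intervalIntegral.integral_sub (i2 (b ^ 2 / s)) (i2 s)))).symm.trans ?_
      refine intervalIntegral.integral_congr fun θ _ => ?_
      have e1 := hPN _ (hA θ)
      have e2 := eM _ (hz0 _ (hA θ).1)
      have e3 : (b : ℂ) ^ 2 / conj ((s : ℂ) * exp (θ * I)) = (b ^ 2 / s : ℝ) * exp (θ * I) := by
        rw [map_mul, conj_ofReal, ← exp_conj, map_mul, conj_ofReal, conj_I, mul_neg, exp_neg]
        push_cast
        field_simp
      simp only [id, Pi.mul_apply, max_eq_right hbs, max_eq_right hs.1.le] at e1 ⊢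
      rw [e1, e2, e3, add_im, sub_im, conj_im]
      push_cast
      ring
  refine ⟨fun z => (c + N z + M z) / z, ?_, fun z hz => ?_⟩
  · refine (((differentiableOn_const _).add (hN.mono fun z hz => hz.1)).add
      (hM.mono fun z hz => mem_ball_zero_iff.2 hz.2)).div differentiableOn_id
      fun z hz => hz0 z hz.1
  · have e1 := hPN z hz
    have e2 := hc z (mem_ball_zero_iff.2 hz.2)
    have e3 := hz0 z hz.1
    have e4 := h0 z hz
    simp only at e1 e2 ⊢
    rw [div_eq_iff e4] at e1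
    rw [div_mul_eq_mul_div, eq_div_iff e3]
    linear_combination e1 + e z * e2

end Vale.Agent.P116.W
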