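import Vale.Agent.P116.W.Ref1

/-! P116 W/Ref2: Schwarz reflection in a circle. -/

open Metric Set Filter Function Topology Complex
open scoped ComplexConjugate Real

noncomputable section

namespace Vale.Agent.P116.W

theorem norm_Ref2 (b : ℝ) (z : ℂ) : ‖(b : ℂ) ^ 2 / conj z‖ = b ^ 2 / ‖z‖ := by
  rw [norm_div, norm_pow, Complex.norm_real, Complex.norm_conj, Real.norm_eq_abs, sq_abs]

theorem fix_Ref2 {b : ℝ} (hb : 0 < b) {z : ℂ} (hz : ‖z‖ = b) : (b : ℂ) ^ 2 / conj z = z := by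
  have h0 : z ≠ 0 := norm_pos_iff.1 (hz ▸ hb)
  rw [div_eq_iff ((map_ne_zero _).2 h0), Complex.mul_conj', hz]

theorem cont_Ref2 (b : ℝ) {z : ℂ} (hz : z ≠ 0) :
    ContinuousAt (fun z : ℂ => (b : ℂ) ^ 2 / conj z) z :=
  continuousAt_const.div Complex.continuous_conj.continuousAt ((map_ne_zero _).2 hz)

theorem diff_Ref2 (b : ℝ) {g : ℂ → ℂ} {z : ℂ} (hz : z ≠ 0)
    (hg : DifferentiableAt ℂ g ((b : ℂ) ^ 2 / conj z)) :
    DifferentiableAt ℂ (fun z : ℂ => conj (g ((b : ℂ) ^ 2 / conj z))) z := by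
  have h1 : DifferentiableAt ℂ (fun w : ℂ => g ((b : ℂ) ^ 2 / w)) (conj z) :=
    DifferentiableAt.comp (g := g) (f := fun w : ℂ => (b : ℂ) ^ 2 / w) (conj z) hg
      ((differentiableAt_const _).div differentiableAt_id ((map_ne_zero _).2 hz))
  exact (differentiableAt_conj_conj_iff (f := fun w : ℂ => g ((b : ℂ) ^ 2 / w))).2 h1

theorem ne_Ref2 {b : ℝ} (hb : 0 < b) {z : ℂ} (hz : ‖z‖ = b) : (𝓝[ball (0 : ℂ) b] z).NeBot := by
  rw [← mem_closure_iff_nhdsWithin_neBot, closure_ball _ hb.ne', mem_closedBall_zero_iff]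
  exact hz.le

theorem lim_Ref2 {e : ℂ → ℂ} {a b : ℝ} (hab : a < b)
    (h1 : ∀ ε : ℝ, 0 < ε → ∃ t, t < b ∧ ∀ z ∈ An a b, t < ‖z‖ → |‖e z‖ - 1| < ε)
    {ξ : ℂ} (hξ : ‖ξ‖ = b) : Tendsto (fun z => ‖e z‖) (𝓝[ball 0 b] ξ) (𝓝 1) := by
  refine Metric.tendsto_nhds.2 fun ε hε => ?_
  obtain ⟨t, ht, h⟩ := h1 ε hε
  have e1 : ∀ᶠ z in 𝓝 ξ, a < ‖z‖ :=
    (continuous_norm.tendsto ξ).eventually (lt_mem_nhds (hξ ▸ hab))
  have e2 : ∀ᶠ z in 𝓝 ξ, t < ‖z‖ :=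
    (continuous_norm.tendsto ξ).eventually (lt_mem_nhds (hξ ▸ ht))
  filter_upwards [e1.filter_mono nhdsWithin_le_nhds, e2.filter_mono nhdsWithin_le_nhds,
    self_mem_nhdsWithin] with z h2 h3 h4
  rw [Real.dist_eq]
  exact h z ⟨h2, mem_ball_zero_iff.1 h4⟩ h3

theorem acc_Ref2 {b : ℝ} (hb : 0 < b) {z : ℂ} (hz : ‖z‖ = b) : ∃ᶠ w in 𝓝[≠] z, ‖w‖ = b := by
  have h0 : z ≠ 0 := norm_pos_iff.1 (hz ▸ hb)
  have h1 : IsPreconnected (sphere (0 : ℂ) b) :=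
    isPreconnected_sphere (by rw [Complex.rank_real_complex]; exact Cardinal.one_lt_two) 0 b
  have h2 : (sphere (0 : ℂ) b).Nontrivial :=
    ⟨z, mem_sphere_zero_iff_norm.2 hz, -z, mem_sphere_zero_iff_norm.2 (by rw [norm_neg, hz]),
      fun h => h0 (self_eq_neg.1 h)⟩
  have h3 := accPt_iff_frequently_nhdsNE.1
    (h1.preperfect_of_nontrivial h2 z (mem_sphere_zero_iff_norm.2 hz))
  exact h3.mono fun w hw => mem_sphere_zero_iff_norm.1 hw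

theorem prim_Ref2 {e : ℂ → ℂ} {a b : ℝ} (ha : 0 < a) (hab : a < b)
    (hd : DifferentiableOn ℂ e (An a b)) (h0 : ∀ z ∈ An a b, e z ≠ 0)
    (h1 : ∀ ε : ℝ, 0 < ε → ∃ t, t < b ∧ ∀ z ∈ An a b, t < ‖z‖ → |‖e z‖ - 1| < ε)
    {ζ : ℂ} (hζ : ‖ζ‖ = b) : ∃ (g : ℂ → ℂ) (δ : ℝ), 0 < δ ∧ ∀ z ∈ ball ζ δ,
      DifferentiableAt ℂ g z ∧ (‖z‖ < b → g z = e z) := by
  obtain ⟨H, hH, hHe⟩ := logder_ext ha hab hd h0 h1
  have hζA : ζ ∈ An a (b ^ 2 / a) := by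
    refine ⟨hζ ▸ hab, ?_⟩
    rw [hζ, lt_div_iff₀ ha]
    nlinarith
  obtain ⟨δ, hδ, hsub⟩ := Metric.isOpen_iff.1 (isOpen_An a (b ^ 2 / a)) ζ hζA
  obtain ⟨Λ, hΛ⟩ := (hH.mono hsub).isExactOn_ball
  have hS : ∀ z ∈ ball ζ δ ∩ ball (0 : ℂ) b, z ∈ An a b := fun z hz =>
    ⟨(hsub hz.1).1, mem_ball_zero_iff.1 hz.2⟩
  have hf : ∀ z ∈ ball ζ δ ∩ ball (0 : ℂ) b, HasDerivAt (fun z => e z * exp (-Λ z)) 0 z := by
    intro z hz
    have h2 : HasDerivAt e (deriv e z) z :=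
      (hd.differentiableAt ((isOpen_An a b).mem_nhds (hS z hz))).hasDerivAt
    have h3 : HasDerivAt (fun z => exp (-Λ z)) (exp (-Λ z) * -H z) z := (hΛ z hz.1).neg.cexp
    refine HasDerivAt.congr_deriv (h2.mul h3) ?_
    rw [hHe z (hS z hz)]
    ring
  obtain ⟨C, hC⟩ := (isOpen_ball.inter isOpen_ball).exists_is_const_of_deriv_eq_zero
    ((convex_ball ζ δ).inter (convex_ball (0 : ℂ) b)).isPreconnected
    (fun z hz => (hf z hz).differentiableAt.differentiableWithinAt) fun z hz => (hf z hz).deriv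
  refine ⟨fun z => C * exp (Λ z), δ, hδ, fun z hz =>
    ⟨(hΛ z hz).differentiableAt.cexp.const_mul C, fun h => ?_⟩⟩
  change C * exp (Λ z) = e z
  rw [← hC z ⟨hz, mem_ball_zero_iff.2 h⟩, mul_assoc, ← Complex.exp_add, neg_add_cancel,
    Complex.exp_zero, mul_one]

theorem mem_Ref2 {a b : ℝ} (ha : 0 < a) (hab : a < b) {z : ℂ} (h1 : b < ‖z‖)
    (h2 : ‖z‖ < b ^ 2 / a) : (b : ℂ) ^ 2 / conj z ∈ An a b := by
  have hb : 0 < b := ha.trans hab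
  have hz : 0 < ‖z‖ := hb.trans h1
  rw [lt_div_iff₀ ha] at h2
  constructor
  · rw [norm_Ref2, lt_div_iff₀ hz]
    linarith
  · rw [norm_Ref2, div_lt_iff₀ hz]
    nlinarith

/-- On a ball around `ζ` inside `An a (b ^ 2 / a)` take a primitive `Λ` of `H`
(`DifferentiableOn.isExactOn_ball`); `e * exp (-Λ)` has derivative zero on the convex set
`ball ζ δ ∩ ball 0 b`, so `e = C * exp Λ =: g` there. `‖g‖ = 1` on the circle by continuity, so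
`g z * conj (g (b ^ 2 / conj z)) = 1` on the circle near `ζ`, hence near `ζ` (zeros of an analytic
function are isolated). -/
theorem ref_loc {e : ℂ → ℂ} {a b : ℝ} (ha : 0 < a) (hab : a < b)
    (hd : DifferentiableOn ℂ e (An a b)) (h0 : ∀ z ∈ An a b, e z ≠ 0)
    (h1 : ∀ ε : ℝ, 0 < ε → ∃ t, t < b ∧ ∀ z ∈ An a b, t < ‖z‖ → |‖e z‖ - 1| < ε)
    {ζ : ℂ} (hζ : ‖ζ‖ = b) : ∃ g : ℂ → ℂ, DifferentiableAt ℂ g ζ ∧ ‖g ζ‖ = 1 ∧ ∀ᶠ z in 𝓝 ζ,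
      DifferentiableAt ℂ g z ∧ (‖z‖ < b → g z = e z) ∧
        (b < ‖z‖ → g z = (conj (e (b ^ 2 / conj z)))⁻¹) := by
  have hb : 0 < b := ha.trans hab
  have hζ0 : ζ ≠ 0 := norm_pos_iff.1 (hζ ▸ hb)
  obtain ⟨g, δ, hδ, hg⟩ := prim_Ref2 ha hab hd h0 h1 hζ
  have hn : ∀ ξ ∈ ball ζ δ, ‖ξ‖ = b → ‖g ξ‖ = 1 := by
    intro ξ hξ hξb
    have := ne_Ref2 hb hξb
    have h2 : Tendsto (fun z => ‖g z‖) (𝓝[ball 0 b] ξ) (𝓝 ‖g ξ‖) :=
      (hg ξ hξ).1.continuousAt.norm.tendsto.mono_left nhdsWithin_le_nhds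
    refine tendsto_nhds_unique h2 ((lim_Ref2 hab h1 hξb).congr' ?_)
    filter_upwards [mem_nhdsWithin_of_mem_nhds (isOpen_ball.mem_nhds hξ), self_mem_nhdsWithin]
      with z h3 h4
    rw [(hg z h3).2 (mem_ball_zero_iff.1 h4)]
  have e1 : ∀ᶠ z in 𝓝 ζ, z ∈ ball ζ δ := ball_mem_nhds ζ hδ
  have e2 : ∀ᶠ z in 𝓝 ζ, (b : ℂ) ^ 2 / conj z ∈ ball ζ δ := by
    have h2 : Tendsto (fun z : ℂ => (b : ℂ) ^ 2 / conj z) (𝓝 ζ) (𝓝 ((b : ℂ) ^ 2 / conj ζ)) :=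
      cont_Ref2 b hζ0
    rw [fix_Ref2 hb hζ] at h2
    exact h2.eventually e1
  have e3 : ∀ᶠ z in 𝓝 ζ, z ≠ 0 := eventually_ne_nhds hζ0
  have hF : AnalyticAt ℂ (fun z => g z * conj (g ((b : ℂ) ^ 2 / conj z))) ζ := by
    refine analyticAt_iff_eventually_differentiableAt.2 ?_
    filter_upwards [e1, e2, e3] with z h2 h3 h4
    exact (hg z h2).1.mul (diff_Ref2 b h4 (hg _ h3).1)
  have e4 : ∀ᶠ z in 𝓝 ζ, g z * conj (g ((b : ℂ) ^ 2 / conj z)) = 1 := by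
    refine (hF.frequently_eq_iff_eventually_eq (g := fun _ => 1) analyticAt_const).1 ?_
    refine ((acc_Ref2 hb hζ).and_eventually (e1.filter_mono nhdsWithin_le_nhds)).mono ?_
    rintro z ⟨h2, h3⟩
    rw [fix_Ref2 hb h2, Complex.mul_conj', hn z h3 h2, Complex.ofReal_one, one_pow]
  refine ⟨g, (hg ζ (mem_ball_self hδ)).1, hn ζ (mem_ball_self hδ) hζ, ?_⟩
  filter_upwards [e1, e2, e4] with z h2 h3 h4
  refine ⟨(hg z h2).1, (hg z h2).2, fun h5 => ?_⟩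
  have h6 : ‖(b : ℂ) ^ 2 / conj z‖ < b := by
    rw [norm_Ref2, div_lt_iff₀ (hb.trans h5)]
    nlinarith
  rw [(hg _ h3).2 h6] at h4
  exact eq_inv_of_mul_eq_one_left h4

/-- Define `e'` as `e` inside, by the formula outside, and on the circle as the limit from inside
(`limUnder (𝓝[ball 0 b] ζ) e`); it agrees with `g` of `ref_loc` near `ζ`. -/
theorem ref_ext {e : ℂ → ℂ} {a b : ℝ} (ha : 0 < a) (hab : a < b)
    (hd : DifferentiableOn ℂ e (An a b)) (h0 : ∀ z ∈ An a b, e z ≠ 0)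
    (h1 : ∀ ε : ℝ, 0 < ε → ∃ t, t < b ∧ ∀ z ∈ An a b, t < ‖z‖ → |‖e z‖ - 1| < ε) :
    ∃ e' : ℂ → ℂ, DifferentiableOn ℂ e' (An a (b ^ 2 / a)) ∧ EqOn e' e (An a b) ∧
      (∀ z, ‖z‖ = b → ‖e' z‖ = 1) ∧
      ∀ z ∈ An b (b ^ 2 / a), e' z = (conj (e (b ^ 2 / conj z)))⁻¹ := by
  have hb : 0 < b := ha.trans hab
  obtain ⟨e', he'⟩ : ∃ e' : ℂ → ℂ, ∀ z, e' z = if ‖z‖ < b then e z else
      if b < ‖z‖ then (conj (e ((b : ℂ) ^ 2 / conj z)))⁻¹ else limUnder (𝓝[ball 0 b] z) e :=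
    ⟨_, fun _ => rfl⟩
  have i1 : ∀ z, ‖z‖ < b → e' z = e z := fun z h => by rw [he', if_pos h]
  have i2 : ∀ z, b < ‖z‖ → e' z = (conj (e ((b : ℂ) ^ 2 / conj z)))⁻¹ := fun z h => by
    rw [he', if_neg (not_lt.2 h.le), if_pos h]
  have i3 : ∀ z, ‖z‖ = b → e' z = limUnder (𝓝[ball 0 b] z) e := fun z h => by
    rw [he', if_neg (not_lt.2 h.ge), if_neg (not_lt.2 h.le)]
  have key : ∀ ζ, ‖ζ‖ = b → DifferentiableAt ℂ e' ζ ∧ ‖e' ζ‖ = 1 := by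
    intro ζ hζ
    obtain ⟨g, hg1, hg2, hg3⟩ := ref_loc ha hab hd h0 h1 hζ
    have h2 : e' =ᶠ[𝓝 ζ] g := by
      filter_upwards [hg3.eventually_nhds] with ξ hξ
      have h3 := hξ.self_of_nhds
      rcases lt_trichotomy ‖ξ‖ b with h | h | h
      · rw [i1 ξ h, h3.2.1 h]
      · have := ne_Ref2 hb h
        rw [i3 ξ h]
        refine Tendsto.limUnder_eq
          ((h3.1.continuousAt.tendsto.mono_left nhdsWithin_le_nhds).congr' ?_)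
        filter_upwards [hξ.filter_mono nhdsWithin_le_nhds, self_mem_nhdsWithin] with z h4 h5
        exact h4.2.1 (mem_ball_zero_iff.1 h5)
      · rw [i2 ξ h, h3.2.2 h]
    refine ⟨hg1.congr_of_eventuallyEq h2, ?_⟩
    rw [h2.self_of_nhds]
    exact hg2
  refine ⟨e', fun z hz => DifferentiableAt.differentiableWithinAt ?_, fun z hz => i1 z hz.2,
    fun z hz => (key z hz).2, fun z hz => i2 z hz.1⟩
  rcases lt_trichotomy ‖z‖ b with h | h | h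
  · refine (hd.differentiableAt ((isOpen_An a b).mem_nhds ⟨hz.1, h⟩)).congr_of_eventuallyEq ?_
    filter_upwards [(continuous_norm.tendsto z).eventually (gt_mem_nhds h)] with w hw
    exact i1 w hw
  · exact (key z h).1
  · have hm := mem_Ref2 ha hab h hz.2
    have hz0 : z ≠ 0 := norm_pos_iff.1 (hb.trans h)
    have h2 := (diff_Ref2 b hz0 (hd.differentiableAt ((isOpen_An a b).mem_nhds hm))).inv
      ((map_ne_zero _).2 (h0 _ hm))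
    refine h2.congr_of_eventuallyEq ?_
    filter_upwards [(continuous_norm.tendsto z).eventually (lt_mem_nhds h)] with w hw
    exact i2 w hw

end Vale.Agent.P116.W
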