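import Vale.Agent.P116.W.Ref2
import Vale.Agent.P116.W.Log
import Vale.Agent.P116.W.RMT

/-! P116 W/Step: one extension step. -/

open Metric Set Filter Function Topology Complex
open scoped ComplexConjugate Real

noncomputable section

namespace Vale.Agent.P116.W

/-- `K ∪ e '' Ac a t` is a compact subset of the disc ... conversely the compact set
`closedBall 0 (1 - ε)` is covered by the increasing open sets `K ∪ e '' An a t`, so it lies in one
of them, and `e z` is outside it for `t < ‖z‖`. -/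
theorem End.norm_one {K : Set ℂ} {e : ℂ → ℂ} {a b : ℝ} (h : End K e a b)
    (hK : K ∪ e '' An a b = ball 0 1) (ε : ℝ) (hε : 0 < ε) :
    ∃ t, t < b ∧ ∀ z ∈ An a b, t < ‖z‖ → |‖e z‖ - 1| < ε := by
  have : Nonempty (Ioo a b) := (nonempty_Ioo.2 h.lt).to_subtype
  have hmono : Monotone fun t : Ioo a b => K ∪ e '' An a t := fun s t hst =>
    union_subset_union_right _ (image_mono fun z hz => ⟨hz.1, hz.2.trans_le hst⟩)
  obtain ⟨t, ht⟩ := (isCompact_closedBall (0 : ℂ) (1 - ε)).elim_directed_cover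
    (fun t : Ioo a b => K ∪ e '' An a t) (fun t => h.op t t.2.1 t.2.2.le) (by
      intro w hw
      have hw' : w ∈ K ∪ e '' An a b := by
        rw [hK]
        exact closedBall_subset_ball (by linarith) hw
      rcases hw' with hw' | ⟨z, hz, rfl⟩
      · exact mem_iUnion.2 ⟨Classical.arbitrary _, Or.inl hw'⟩
      · obtain ⟨s, s1, s2⟩ := exists_between hz.2
        exact mem_iUnion.2 ⟨⟨s, hz.1.trans s1, s2⟩, Or.inr ⟨z, ⟨hz.1, s1⟩, rfl⟩⟩)
    hmono.directed_le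
  refine ⟨t, t.2.2, fun z hz htz => ?_⟩
  have h1 : e z ∈ ball (0 : ℂ) 1 := by
    rw [← hK]
    exact Or.inr ⟨z, hz, rfl⟩
  have h2 : e z ∉ closedBall (0 : ℂ) (1 - ε) := by
    intro hc
    rcases ht hc with hk | ⟨w, hw, he⟩
    · exact Set.disjoint_left.1 h.dis hk ⟨z, hz, rfl⟩
    · have := h.inj ⟨hw.1, hw.2.trans t.2.2⟩ hz he
      subst this
      exact lt_asymm hw.2 htz
  rw [mem_ball_zero_iff] at h1
  rw [mem_closedBall_zero_iff, not_le] at h2
  rw [abs_lt]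
  constructor <;> linarith

theorem refl_mem_step {a b : ℝ} (ha : 0 < a) (hab : a < b) {z : ℂ} (hz : z ∈ An b (b ^ 2 / a)) :
    (b : ℂ) ^ 2 / conj z ∈ An a b := by
  have hb : 0 < b := ha.trans hab
  have hz0 : 0 < ‖z‖ := hb.trans hz.1
  have e : ‖(b : ℂ) ^ 2 / conj z‖ = b ^ 2 / ‖z‖ := by
    rw [norm_div, norm_pow, norm_real, Real.norm_of_nonneg hb.le, norm_conj]
  have h2 := hz.2
  rw [lt_div_iff₀ ha] at h2
  refine ⟨?_, ?_⟩
  · rw [e, lt_div_iff₀ hz0]
    linarith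
  · rw [e, div_lt_iff₀ hz0]
    nlinarith [hz.1]

theorem inj_step {f : ℂ → ℂ} {U : Set ℂ} {b : ℝ} (hb : 0 < b) (hU : IsOpen U)
    (hd : DifferentiableOn ℂ f U) (h1 : ∀ z ∈ U, ‖f z‖ = 1 ↔ ‖z‖ = b)
    (hi : ∀ z ∈ U, ∀ w ∈ U, f z = f w → ‖z‖ ≠ b → z = w) : InjOn f U := by
  have hop : ∀ z ∈ U, ‖z‖ = b → 𝓝 (f z) ≤ map f (𝓝 z) := by
    intro z hz hzb
    refine ((hd.analyticOnNhd hU z hz).eventually_constant_or_nhds_le_map_nhds).resolve_left
      fun hc => ?_
    have hm : z ∈ closure (ball (0 : ℂ) b) := by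
      rw [closure_ball _ hb.ne', mem_closedBall_zero_iff]
      exact hzb.le
    obtain ⟨y, ⟨y1, y2⟩, y3⟩ := mem_closure_iff_nhds.1 hm _ (inter_mem hc (hU.mem_nhds hz))
    have : ‖f y‖ = 1 := by
      rw [show f y = f z from y1]
      exact (h1 z hz).2 hzb
    exact (mem_ball_zero_iff.1 y3).ne ((h1 y y2).1 this)
  intro z hz w hw he
  by_contra hne
  have hzb : ‖z‖ = b := by_contra fun hc => hne (hi z hz w hw he hc)
  have hwb : ‖w‖ = b := by_contra fun hc => hne (hi w hw z hz he.symm hc).symm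
  obtain ⟨V, V', hV, hV', hdis⟩ := t2_separation_nhds hne
  have m1 : f '' (V ∩ U) ∈ 𝓝 (f z) := hop z hz hzb (image_mem_map (inter_mem hV (hU.mem_nhds hz)))
  have m2 : f '' (V' ∩ U) ∈ 𝓝 (f z) := by
    rw [he]
    exact hop w hw hwb (image_mem_map (inter_mem hV' (hU.mem_nhds hw)))
  have hm : f z ∈ closure (ball (0 : ℂ) 1) := by
    rw [closure_ball _ one_ne_zero, mem_closedBall_zero_iff]
    exact ((h1 z hz).2 hzb).le
  obtain ⟨v, ⟨⟨x, x1, rfl⟩, y, y1, y2⟩, v1⟩ := mem_closure_iff_nhds.1 hm _ (inter_mem m1 m2)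
  have hx : ‖x‖ ≠ b := fun hc => (mem_ball_zero_iff.1 v1).ne ((h1 x x1.2).2 hc)
  have := hi x x1.2 y y1.2 y2.symm hx
  subst this
  exact Set.disjoint_left.1 hdis x1.1 y1.1

/-- Take `e'` from `ref_ext`. Norms are `< 1`, `= 1`, `> 1` on the three parts, so `e'` is
injective off the circle; two points of the circle with the same value have disjoint small
neighbourhoods whose images are neighbourhoods of the value (`e'` is not locally constant:
`AnalyticAt.eventually_constant_or_nhds_le_map_nhds`), so share a value of norm `≠ 1`.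
Openness for `t > b`: `K ∪ e' '' An a t = ball 0 1 ∪ e' '' An a t`. Boundedness: on
`An b (b ^ 2 / a')` the point `b ^ 2 / conj z` has norm in `(a', b)`, where `‖e‖ ≥ c > 0` (a small
closed ball at `0` lies in the open set `K ∪ e '' An a (min a' ..)`, `0 ∈ K`). -/
theorem End.refl {K : Set ℂ} {e : ℂ → ℂ} {a a' b : ℝ} (h : End K e a b)
    (hK : K ∪ e '' An a b = ball 0 1) (h0 : (0 : ℂ) ∈ K) (h1 : a < a') (h2 : a' < b) :
    ∃ e' : ℂ → ℂ, EqOn e' e (An a b) ∧ End K e' a (b ^ 2 / a') ∧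
      Bornology.IsBounded (K ∪ e' '' An a (b ^ 2 / a')) := by
  have ha := h.pos
  have hab := h.lt
  have hb : 0 < b := ha.trans hab
  have ha' : 0 < a' := ha.trans h1
  have hne : ∀ z ∈ An a b, e z ≠ 0 := fun z hz hc =>
    Set.disjoint_left.1 h.dis h0 ⟨z, hz, hc⟩
  have hlt : ∀ z ∈ An a b, ‖e z‖ < 1 := fun z hz => by
    rw [← mem_ball_zero_iff, ← hK]
    exact Or.inr ⟨z, hz, rfl⟩
  obtain ⟨e', d1, d2, d3, d4⟩ := ref_ext ha hab h.hol hne (h.norm_one hK)
  have b1 : b < b ^ 2 / a' := by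
    rw [lt_div_iff₀ ha']
    nlinarith
  have b2 : b ^ 2 / a' < b ^ 2 / a := div_lt_div_of_pos_left (by positivity) ha h1
  have n1 : ∀ z ∈ An a (b ^ 2 / a), ‖z‖ < b → ‖e' z‖ < 1 := fun z hz hzb => by
    rw [d2 ⟨hz.1, hzb⟩]
    exact hlt z ⟨hz.1, hzb⟩
  have n3 : ∀ z ∈ An a (b ^ 2 / a), b < ‖z‖ → 1 < ‖e' z‖ := fun z hz hzb => by
    have hm := refl_mem_step ha hab ⟨hzb, hz.2⟩
    rw [d4 z ⟨hzb, hz.2⟩, norm_inv, norm_conj]
    exact (one_lt_inv₀ (norm_pos_iff.2 (hne _ hm))).2 (hlt _ hm)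
  have m1 : ∀ z ∈ An a (b ^ 2 / a), ‖e' z‖ < 1 → ‖z‖ < b := fun z hz hc => by
    rcases lt_trichotomy ‖z‖ b with hl | hl | hl
    · exact hl
    · exact absurd (d3 z hl) hc.ne
    · exact absurd (n3 z hz hl) hc.not_gt
  have m3 : ∀ z ∈ An a (b ^ 2 / a), 1 < ‖e' z‖ → b < ‖z‖ := fun z hz hc => by
    rcases lt_trichotomy ‖z‖ b with hl | hl | hl
    · exact absurd (n1 z hz hl) hc.not_gt
    · exact absurd (d3 z hl) hc.ne'
    · exact hl
  have hinj : InjOn e' (An a (b ^ 2 / a)) := by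
    refine inj_step hb (isOpen_An _ _) d1 (fun z hz => ⟨fun hc => ?_, d3 z⟩) fun z hz w hw he hzb => ?_
    · rcases lt_trichotomy ‖z‖ b with hl | hl | hl
      · exact absurd hc (n1 z hz hl).ne
      · exact hl
      · exact absurd hc (n3 z hz hl).ne'
    · rcases lt_or_gt_of_ne hzb with hl | hl
      · have hw' := m1 w hw (by rw [← he]; exact n1 z hz hl)
        rw [d2 ⟨hz.1, hl⟩, d2 ⟨hw.1, hw'⟩] at he
        exact h.inj ⟨hz.1, hl⟩ ⟨hw.1, hw'⟩ he
      · have hw' := m3 w hw (by rw [← he]; exact n3 z hz hl)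
        rw [d4 z ⟨hl, hz.2⟩, d4 w ⟨hw', hw.2⟩, inv_inj] at he
        have e1 := h.inj (refl_mem_step ha hab ⟨hl, hz.2⟩) (refl_mem_step ha hab ⟨hw', hw.2⟩)
          ((starRingEnd ℂ).injective he)
        have e2 : (b : ℂ) ^ 2 ≠ 0 := pow_ne_zero _ (ofReal_ne_zero.2 hb.ne')
        rw [div_eq_mul_inv, div_eq_mul_inv, mul_right_inj' e2, inv_inj] at e1
        exact (starRingEnd ℂ).injective e1
  have hsub : ∀ t, t ≤ b ^ 2 / a' → An a t ⊆ An a (b ^ 2 / a) := fun t ht z hz =>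
    ⟨hz.1, hz.2.trans (ht.trans_lt b2)⟩
  have hun : ∀ t, b ≤ t → K ∪ e' '' An a t = (K ∪ e '' An a b) ∪ e' '' An a t := fun t ht => by
    have hs : An a b ⊆ An a t := fun z hz => ⟨hz.1, hz.2.trans_le ht⟩
    rw [union_assoc, ← d2.image_eq, ← image_union, union_eq_self_of_subset_left hs]
  have hcpt : ∀ t, a < t → t ≤ b ^ 2 / a' → IsCompact (K ∪ e' '' Ac a t) := by
    intro t t1 t2
    obtain ⟨s, s1, s2⟩ := exists_between (lt_min t1 hab)
    rw [lt_min_iff] at s2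
    have hs : Ac a s ⊆ An a b := fun z hz => ⟨hz.1, hz.2.trans_lt s2.2⟩
    have e1 : Ac a t = Ac a s ∪ (closedBall 0 t \ ball 0 s) := by
      ext z
      simp only [Ac, mem_union, mem_ofPred_eq, Set.mem_sdiff, mem_closedBall_zero_iff,
        mem_ball_zero_iff, not_lt]
      constructor
      · rintro ⟨z1, z2⟩
        rcases le_total ‖z‖ s with hl | hl
        · exact Or.inl ⟨z1, hl⟩
        · exact Or.inr ⟨z2, hl⟩
      · rintro (⟨z1, z2⟩ | ⟨z1, z2⟩)
        · exact ⟨z1, z2.trans s2.1.le⟩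
        · exact ⟨s1.trans_le z2, z1⟩
    rw [e1, image_union, ← union_assoc, (d2.mono hs).image_eq]
    refine (h.cpt s s1 s2.2).union (((isCompact_closedBall _ _).diff isOpen_ball).image_of_continuousOn
      (d1.continuousOn.mono fun z hz => ?_))
    have z1 := mem_closedBall_zero_iff.1 hz.1
    have z2 := not_lt.1 fun hc => hz.2 (mem_ball_zero_iff.2 hc)
    exact ⟨s1.trans_le z2, z1.trans_lt (t2.trans_lt b2)⟩
  refine ⟨e', d2, ⟨ha, hab.trans b1, h.ne, d1.mono (hsub _ le_rfl), hinj.mono (hsub _ le_rfl), ?_,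
    fun t t1 t2 => ?_, fun t t1 t2 => hcpt t t1 t2.le, ?_⟩,
    (hcpt _ (hab.trans b1) le_rfl).isBounded.subset
      (union_subset_union_right _ (image_mono fun z hz => ⟨hz.1, hz.2.le⟩))⟩
  · rw [Set.disjoint_left]
    rintro _ hk ⟨z, hz, rfl⟩
    have hk' : e' z ∈ ball (0 : ℂ) 1 := by
      rw [← hK]
      exact Or.inl hk
    have hz' : z ∈ An a b := ⟨hz.1, m1 z (hsub _ le_rfl hz) (mem_ball_zero_iff.1 hk')⟩
    exact Set.disjoint_left.1 h.dis hk ⟨z, hz', (d2 hz').symm⟩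
  · rcases le_total t b with hl | hl
    · have hs : An a t ⊆ An a b := fun z hz => ⟨hz.1, hz.2.trans_le hl⟩
      rw [(d2.mono hs).image_eq]
      exact h.op t t1 hl
    · rw [hun t hl, hK]
      exact isOpen_ball.union (open_image (isOpen_An _ _) d1 hinj (isOpen_An _ _) (hsub t t2))
  · rw [hun _ b1.le]
    obtain ⟨s, s1, s2⟩ := exists_between hab
    have hs : (s : ℂ) ∈ An a b := by
      have : ‖(s : ℂ)‖ = s := by rw [norm_real, Real.norm_of_nonneg (ha.trans s1).le]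
      exact ⟨by rwa [this], by rwa [this]⟩
    exact h.con.union (e' s) (Or.inr ⟨s, hs, (d2 hs).symm⟩) ⟨s, ⟨hs.1, hs.2.trans b1⟩, rfl⟩
      ((An_con ha.le).image _ (d1.continuousOn.mono (hsub _ le_rfl)))

end Vale.Agent.P116.W
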